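import Crest.Agent.R226.G0Defs

/-!
# rid 226, part G0 (port of R244/CH to `M : Type*`, `C^∞` flow; owner helper39), file `CHCalc`

The coordinate formulas `christoffel`, `secNumer` in terms of bilinear maps.

Prefix helper lemmas with `chcalc_`.
-/

set_option autoImplicit false

open scoped ContDiff Manifold Topology
open Bundle Set Filter
open Crest.GeometryTopology.CoordMetric Crest.GeometryTopology.ChartCurvature Crest.GeometryTopology.Geodesic

noncomputable section

namespace Crest.Agent.R226.G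

variable {n : ℕ}

section gen

variable {E F : Type} [NormedAddCommGroup E] [NormedSpace ℝ E] [NormedAddCommGroup F] [NormedSpace ℝ F]

theorem chcalc_gen_fderiv2 (f : Fin n → Fin n → E → ℝ) (c : Fin n → Fin n → F) {x : E}
    (h : ∀ i j, DifferentiableAt ℝ (f i j) x) (w : E) :
    fderiv ℝ (fun y => ∑ i, ∑ j, f i j y • c i j) x w = ∑ i, ∑ j, fderiv ℝ (f i j) x w • c i j := by
  have h1 : HasFDerivAt (fun y => ∑ i, ∑ j, f i j y • c i j)
      (∑ i, ∑ j, (fderiv ℝ (f i j) x).smulRight (c i j)) x :=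
    HasFDerivAt.fun_sum fun i _ => HasFDerivAt.fun_sum fun j _ => (h i j).hasFDerivAt.smul_const _
  rw [h1.fderiv]
  simp

theorem chcalc_gen_fderiv3 (f : Fin n → Fin n → Fin n → E → ℝ) (c : Fin n → Fin n → Fin n → F) {x : E}
    (h : ∀ k i j, DifferentiableAt ℝ (f k i j) x) (w : E) :
    fderiv ℝ (fun y => ∑ k, ∑ i, ∑ j, f k i j y • c k i j) x w =
      ∑ k, ∑ i, ∑ j, fderiv ℝ (f k i j) x w • c k i j := by
  have h1 : HasFDerivAt (fun y => ∑ k, ∑ i, ∑ j, f k i j y • c k i j)
      (∑ k, ∑ i, ∑ j, (fderiv ℝ (f k i j) x).smulRight (c k i j)) x :=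
    HasFDerivAt.fun_sum fun k _ => HasFDerivAt.fun_sum fun i _ => HasFDerivAt.fun_sum fun j _ =>
      (h k i j).hasFDerivAt.smul_const _
  rw [h1.fderiv]
  simp

theorem chcalc_gen_smooth2 (f : Fin n → Fin n → E → ℝ) (c : Fin n → Fin n → F) {U : Set E}
    (h : ∀ i j, ContDiffOn ℝ ∞ (f i j) U) : ContDiffOn ℝ ∞ (fun y => ∑ i, ∑ j, f i j y • c i j) U :=
  ContDiffOn.sum fun i _ => ContDiffOn.sum fun j _ => (h i j).smul contDiffOn_const

theorem chcalc_gen_smooth3 (f : Fin n → Fin n → Fin n → E → ℝ) (c : Fin n → Fin n → Fin n → F) {U : Set E}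
    (h : ∀ k i j, ContDiffOn ℝ ∞ (f k i j) U) :
    ContDiffOn ℝ ∞ (fun y => ∑ k, ∑ i, ∑ j, f k i j y • c k i j) U :=
  ContDiffOn.sum fun k _ => ContDiffOn.sum fun i _ => ContDiffOn.sum fun j _ =>
    (h k i j).smul contDiffOn_const

end gen

theorem chcalc_s3a (T : Fin n → Fin n → Fin n → ℝ) :
    ∑ i, ∑ j, ∑ l, T l i j = ∑ l, ∑ i, ∑ j, T l i j := by
  symm
  rw [Finset.sum_comm]
  exact Finset.sum_congr rfl fun i _ => Finset.sum_comm

theorem chcalc_s3b (T : Fin n → Fin n → Fin n → ℝ) :
    ∑ j, ∑ k, ∑ i, T k i j = ∑ k, ∑ i, ∑ j, T k i j := by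
  rw [Finset.sum_comm]
  exact Finset.sum_congr rfl fun i _ => Finset.sum_comm

theorem chcalc_s4a (T : Fin n → Fin n → Fin n → Fin n → ℝ) :
    ∑ k, ∑ j, ∑ l, ∑ i, T l i j k = ∑ l, ∑ i, ∑ j, ∑ k, T l i j k := by
  calc ∑ k, ∑ j, ∑ l, ∑ i, T l i j k = ∑ k, ∑ l, ∑ i, ∑ j, T l i j k :=
        Finset.sum_congr rfl fun k _ => chcalc_s3b (fun l i j => T l i j k)
    _ = ∑ l, ∑ k, ∑ i, ∑ j, T l i j k := Finset.sum_comm
    _ = ∑ l, ∑ i, ∑ j, ∑ k, T l i j k :=
        Finset.sum_congr rfl fun l _ => chcalc_s3b (fun i j k => T l i j k)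

theorem chcalc_s4b (T : Fin n → Fin n → Fin n → Fin n → ℝ) :
    ∑ i, ∑ k, ∑ l, ∑ j, T l i j k = ∑ l, ∑ i, ∑ j, ∑ k, T l i j k := by
  calc ∑ i, ∑ k, ∑ l, ∑ j, T l i j k = ∑ i, ∑ l, ∑ j, ∑ k, T l i j k :=
        Finset.sum_congr rfl fun i _ => chcalc_s3b (fun l j k => T l i j k)
    _ = ∑ l, ∑ i, ∑ j, ∑ k, T l i j k := Finset.sum_comm

theorem chcalc_s4c (T : Fin n → Fin n → Fin n → Fin n → ℝ) :
    ∑ i, ∑ a, ∑ j, ∑ k, T k i j a = ∑ k, ∑ i, ∑ j, ∑ a, T k i j a := by
  calc ∑ i, ∑ a, ∑ j, ∑ k, T k i j a = ∑ i, ∑ j, ∑ k, ∑ a, T k i j a :=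
        Finset.sum_congr rfl fun i _ => chcalc_s3b (fun j k a => T k i j a)
    _ = ∑ k, ∑ i, ∑ j, ∑ a, T k i j a := chcalc_s3a (fun k i j => ∑ a, T k i j a)

theorem chcalc_s4d (T : Fin n → Fin n → Fin n → Fin n → ℝ) :
    ∑ j, ∑ a, ∑ i, ∑ k, T k i j a = ∑ k, ∑ i, ∑ j, ∑ a, T k i j a := by
  calc ∑ j, ∑ a, ∑ i, ∑ k, T k i j a = ∑ j, ∑ i, ∑ k, ∑ a, T k i j a :=
        Finset.sum_congr rfl fun j _ => chcalc_s3b (fun i k a => T k i j a)
    _ = ∑ j, ∑ k, ∑ i, ∑ a, T k i j a := Finset.sum_congr rfl fun j _ => Finset.sum_comm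
    _ = ∑ k, ∑ i, ∑ j, ∑ a, T k i j a := chcalc_s3b (fun k i j => ∑ a, T k i j a)

theorem chcalc_tri_apply (c : Fin n → Fin n → Fin n → ℝ) (u v : EE n) (k : Fin n) :
    (∑ k, ∑ i, ∑ j, c k i j •
      (EuclideanSpace.proj i : EE n →L[ℝ] ℝ).smulRight
        ((EuclideanSpace.proj j : EE n →L[ℝ] ℝ).smulRight
          (EuclideanSpace.single k (1 : ℝ) : EE n))) u v k = ∑ i, ∑ j, c k i j * u i * v j := by
  simp only [sum_apply, smul_apply,
    ContinuousLinearMap.smulRight_apply, WithLp.ofLp_sum, WithLp.ofLp_smul, Finset.sum_apply,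
    Pi.smul_apply, smul_eq_mul]
  rw [Finset.sum_eq_single k]
  · refine Finset.sum_congr rfl fun i _ => Finset.sum_congr rfl fun j _ => ?_
    simp [mul_assoc]
  · intro b _ hb
    simp [hb.symm]
  · simp

theorem chcalc_fderiv_expand (f : EE n → ℝ) (x w : EE n) :
    fderiv ℝ f x w = ∑ l, pderiv l f x * w l := by
  have hw : w = ∑ l, w l • (EuclideanSpace.single l (1 : ℝ) : EE n) := by
    ext k
    simp [Pi.single_apply]
  conv_lhs => rw [hw]
  rw [map_sum]
  refine Finset.sum_congr rfl fun l _ => ?_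
  rw [map_smul, smul_eq_mul, mul_comm]
  rfl

theorem chcalc_fderiv_gL {G : MetricField n} {x : EE n}
    (h : ∀ i j, DifferentiableAt ℝ (fun y => G y i j) x) (w u v : EE n) :
    fderiv ℝ (gL G) x w u v = ∑ i, ∑ j, (∑ l, pderiv l (fun y => G y i j) x * w l) * u i * v j := by
  have h1 : fderiv ℝ (gL G) x w = ∑ i, ∑ j, fderiv ℝ (fun y => G y i j) x w •
      (EuclideanSpace.proj i : EE n →L[ℝ] ℝ).smulRight (EuclideanSpace.proj j : EE n →L[ℝ] ℝ) :=
    chcalc_gen_fderiv2 (F := EE n →L[ℝ] EE n →L[ℝ] ℝ) (fun i j y => G y i j) _ h w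
  rw [h1]
  simp only [sum_apply, smul_apply,
    ContinuousLinearMap.smulRight_apply, smul_eq_mul, chcalc_fderiv_expand]
  refine Finset.sum_congr rfl fun i _ => Finset.sum_congr rfl fun j _ => ?_
  simp [mul_assoc]

theorem chcalc_fderiv_GamL {G : MetricField n} {x : EE n}
    (h : ∀ k i j, DifferentiableAt ℝ (fun y => christoffel G y k i j) x) (w u v : EE n) (k : Fin n) :
    fderiv ℝ (GamL G) x w u v k =
      ∑ i, ∑ j, (∑ l, pderiv l (fun y => christoffel G y k i j) x * w l) * u i * v j := by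
  have h1 : fderiv ℝ (GamL G) x w = ∑ k, ∑ i, ∑ j, fderiv ℝ (fun y => christoffel G y k i j) x w •
      (EuclideanSpace.proj i : EE n →L[ℝ] ℝ).smulRight
        ((EuclideanSpace.proj j : EE n →L[ℝ] ℝ).smulRight
          (EuclideanSpace.single k (1 : ℝ) : EE n)) :=
    chcalc_gen_fderiv3 (F := EE n →L[ℝ] EE n →L[ℝ] EE n) (fun k i j y => christoffel G y k i j) _ h w
  rw [h1, chcalc_tri_apply]
  simp only [chcalc_fderiv_expand]

theorem chcalc_det {A : EE n → Matrix (Fin n) (Fin n) ℝ} {U : Set (EE n)}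
    (h : ∀ i j, ContDiffOn ℝ ∞ (fun x => A x i j) U) : ContDiffOn ℝ ∞ (fun x => (A x).det) U := by
  simp only [Matrix.det_apply']
  exact ContDiffOn.sum fun σ _ => contDiffOn_const.mul (contDiffOn_prod fun i _ => h _ _)

theorem chcalc_inv {G : MetricField n} {U : Set (EE n)} (h : IsRiemannianOn G U) (k l : Fin n) :
    ContDiffOn ℝ ∞ (fun x => inverseField G x k l) U := by
  have e : (fun x => inverseField G x k l) =
      fun x => ((G x).det)⁻¹ * ((G x).updateRow l (Pi.single k 1)).det := by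
    funext x
    unfold inverseField
    rw [Matrix.inv_def, Ring.inverse_eq_inv', Matrix.smul_apply, Matrix.adjugate_apply, smul_eq_mul]
  rw [e]
  refine ((chcalc_det h.contDiffOn).inv fun x hx => (h.posDef x hx).det_pos.ne').mul
    (chcalc_det fun i j => ?_)
  simp only [Matrix.updateRow_apply]
  split_ifs
  · exact contDiffOn_const
  · exact h.contDiffOn i j

theorem chcalc_pderiv {f : EE n → ℝ} {U : Set (EE n)} (hU : IsOpen U) (hf : ContDiffOn ℝ ∞ f U)
    (i : Fin n) : ContDiffOn ℝ ∞ (fun x => pderiv i f x) U := by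
  unfold pderiv
  exact (hf.fderiv_of_isOpen hU (by simp)).clm_apply contDiffOn_const

theorem gL_apply (G : MetricField n) (x u v : EE n) : gL G x u v = ∑ i, ∑ j, G x i j * u i * v j := by
  unfold gL
  simp only [sum_apply, smul_apply,
    ContinuousLinearMap.smulRight_apply, smul_eq_mul]
  refine Finset.sum_congr rfl fun i _ => Finset.sum_congr rfl fun j _ => ?_
  simp [mul_assoc]

theorem GamL_apply (G : MetricField n) (x u v : EE n) (k : Fin n) :
    GamL G x u v k = ∑ i, ∑ j, christoffel G x k i j * u i * v j := by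
  unfold GamL
  exact chcalc_tri_apply (fun k i j => christoffel G x k i j) u v k

/-- The entries of the inverse matrix are `det⁻¹ * adjugate`, smooth where `det ≠ 0`; `pderiv i f` is smooth on the
open set `U` when `f` is (`ContDiffOn.fderiv_of_isOpen`). -/
theorem contDiffOn_christoffel {G : MetricField n} {U : Set (EE n)} (h : IsRiemannianOn G U) (k i j : Fin n) :
    ContDiffOn ℝ ∞ (fun x => christoffel G x k i j) U := by
  unfold christoffel
  refine contDiffOn_const.mul (ContDiffOn.sum fun l _ => ?_)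
  refine (chcalc_inv h k l).mul ?_
  exact ((chcalc_pderiv h.isOpen (h.contDiffOn j l) i).add
    (chcalc_pderiv h.isOpen (h.contDiffOn i l) j)).sub (chcalc_pderiv h.isOpen (h.contDiffOn i j) l)

/-- Koszul formula in coordinates: `∑ k, G m k * Γᵏᵢⱼ = (∂ᵢ G j m + ∂ⱼ G i m - ∂ₘ G i j) / 2` (`G * G⁻¹ = 1`). -/
theorem lower_christoffel {G : MetricField n} {U : Set (EE n)} (h : IsRiemannianOn G U) {x : EE n} (hx : x ∈ U)
    (m i j : Fin n) :
    ∑ k, G x m k * christoffel G x k i j =
      (pderiv i (fun y => G y j m) x + pderiv j (fun y => G y i m) x - pderiv m (fun y => G y i j) x) / 2 := by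
  have hdet : IsUnit (G x).det := (h.posDef x hx).det_pos.ne'.isUnit
  have hmul : ∀ l, ∑ k, G x m k * (G x)⁻¹ k l = if m = l then 1 else 0 := fun l => by
    have := congrFun (congrFun (Matrix.mul_nonsing_inv (G x) hdet) m) l
    rw [Matrix.mul_apply, Matrix.one_apply] at this
    exact this
  unfold christoffel inverseField
  set D : Fin n → ℝ := fun l =>
    pderiv i (fun y => G y j l) x + pderiv j (fun y => G y i l) x - pderiv l (fun y => G y i j) x
    with hD
  have e1 : ∑ k, G x m k * (1 / 2 * ∑ l, (G x)⁻¹ k l * D l) =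
      1 / 2 * ∑ l, (∑ k, G x m k * (G x)⁻¹ k l) * D l := by
    simp only [Finset.mul_sum, Finset.sum_mul]
    rw [Finset.sum_comm]
    exact Finset.sum_congr rfl fun l _ => Finset.sum_congr rfl fun k _ => by ring
  have e2 : ∑ l, (∑ k, G x m k * (G x)⁻¹ k l) * D l = D m := by
    simp [hmul]
  change ∑ k, G x m k * (1 / 2 * ∑ l, (G x)⁻¹ k l * D l) = D m / 2
  rw [e1, e2]
  ring

/-- Smoothness: finite sums of smooth scalars times constants.  Symmetry of `Γ` and compatibility: `G y i j = G y j i`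
on the open set `U`, so the partial derivatives are symmetric as well; expand
`fderiv (gL G) x w u v = ∑ l i j, ∂ₗ G i j * w l * u i * v j` (write `w = ∑ l, w l • single l 1`) and use
`lower_christoffel`. -/
theorem isLC_of_riem {G : MetricField n} {U : Set (EE n)} (h : IsRiemannianOn G U) : IsLC (gL G) (GamL G) U := by
  have hsym : ∀ x ∈ U, ∀ i j, G x i j = G x j i := fun x hx i j => by
    have := (h.posDef x hx).isHermitian.apply j i
    simpa using this
  have hpsym : ∀ x ∈ U, ∀ l i j, pderiv l (fun y => G y i j) x = pderiv l (fun y => G y j i) x := by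
    intro x hx l i j
    unfold pderiv
    have : (fun y => G y i j) =ᶠ[𝓝 x] fun y => G y j i := by
      filter_upwards [h.isOpen.mem_nhds hx] with y hy using hsym y hy i j
    rw [this.fderiv_eq]
  have hΓsym : ∀ x ∈ U, ∀ k i j, christoffel G x k i j = christoffel G x k j i := by
    intro x hx k i j
    unfold christoffel
    congr 1
    refine Finset.sum_congr rfl fun l _ => ?_
    rw [hpsym x hx l i j]
    ring
  refine ⟨h.isOpen, ?_, ?_, ?_, ?_, ?_, ?_⟩
  · exact chcalc_gen_smooth2 (F := EE n →L[ℝ] EE n →L[ℝ] ℝ) (fun i j y => G y i j) _ h.contDiffOn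
  · exact chcalc_gen_smooth3 (F := EE n →L[ℝ] EE n →L[ℝ] EE n) (fun k i j y => christoffel G y k i j) _
      (contDiffOn_christoffel h)
  · intro x hx u v
    rw [gL_apply, gL_apply, Finset.sum_comm]
    refine Finset.sum_congr rfl fun i _ => Finset.sum_congr rfl fun j _ => ?_
    rw [hsym x hx j i]
    ring
  · intro x hx v hv
    rw [gL_apply]
    have hv' : (v.ofLp : Fin n → ℝ) ≠ 0 := by
      intro h0
      apply hv
      ext i
      exact congrFun h0 i
    have := (h.posDef x hx).dotProduct_mulVec_pos hv'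
    simp only [star_trivial, dotProduct, Matrix.mulVec, Finset.mul_sum] at this
    refine lt_of_lt_of_eq this ?_
    exact Finset.sum_congr rfl fun i _ => Finset.sum_congr rfl fun j _ => by ring
  · intro x hx u v
    ext k
    rw [GamL_apply, GamL_apply, Finset.sum_comm]
    refine Finset.sum_congr rfl fun i _ => Finset.sum_congr rfl fun j _ => ?_
    rw [hΓsym x hx k j i]
    ring
  · intro x hx w u v
    have hd : ∀ i j, DifferentiableAt ℝ (fun y => G y i j) x := fun i j =>
      ((h.contDiffOn i j).contDiffAt (h.isOpen.mem_nhds hx)).differentiableAt (by simp)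
    have e0 : fderiv ℝ (gL G) x w u v =
        ∑ l, ∑ i, ∑ j, pderiv l (fun y => G y i j) x * (w l * u i * v j) := by
      rw [chcalc_fderiv_gL hd]
      simp only [Finset.sum_mul]
      rw [← chcalc_s3a (fun l i j => pderiv l (fun y => G y i j) x * (w l * u i * v j))]
      exact Finset.sum_congr rfl fun i _ => Finset.sum_congr rfl fun j _ =>
        Finset.sum_congr rfl fun l _ => by ring
    have e1 : gL G x (GamL G x w u) v =
        ∑ l, ∑ i, ∑ j, (∑ k, G x j k * christoffel G x k l i) * (w l * u i * v j) := by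
      rw [gL_apply]
      simp only [GamL_apply, Finset.sum_mul, Finset.mul_sum]
      rw [← chcalc_s4a (fun l i j k => G x j k * christoffel G x k l i * (w l * u i * v j))]
      refine Finset.sum_congr rfl fun k _ => Finset.sum_congr rfl fun j _ =>
        Finset.sum_congr rfl fun l _ => Finset.sum_congr rfl fun i _ => ?_
      rw [hsym x hx k j]
      ring
    have e2 : gL G x u (GamL G x w v) =
        ∑ l, ∑ i, ∑ j, (∑ k, G x i k * christoffel G x k l j) * (w l * u i * v j) := by
      rw [gL_apply]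
      simp only [GamL_apply, Finset.sum_mul, Finset.mul_sum]
      rw [← chcalc_s4b (fun l i j k => G x i k * christoffel G x k l j * (w l * u i * v j))]
      refine Finset.sum_congr rfl fun i _ => Finset.sum_congr rfl fun k _ =>
        Finset.sum_congr rfl fun l _ => Finset.sum_congr rfl fun j _ => ?_
      ring
    rw [e0, e1, e2]
    simp only [← Finset.sum_add_distrib]
    refine Finset.sum_congr rfl fun l _ => Finset.sum_congr rfl fun i _ =>
      Finset.sum_congr rfl fun j _ => ?_
    rw [lower_christoffel h hx, lower_christoffel h hx, hpsym x hx l j i]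
    ring

/-- Expand `fderiv (GamL G) x u v w l = ∑ i j k, ∂ᵢ Γˡⱼₖ * u i * v j * w k` and compare with `riemann`. -/
theorem secNumer_eq {G : MetricField n} {U : Set (EE n)} (h : IsRiemannianOn G U) {x : EE n} (hx : x ∈ U)
    (u v : EE n) : secNumer G x u v = gL G x (curv (GamL G) x u v v) u := by
  have hd : ∀ k i j, DifferentiableAt ℝ (fun y => christoffel G y k i j) x := fun k i j =>
    ((contDiffOn_christoffel h k i j).contDiffAt (h.isOpen.mem_nhds hx)).differentiableAt (by simp)
  have key : ∀ (w : EE n) (l : Fin n), curv (GamL G) x u v w l =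
      ∑ k, ∑ i, ∑ j, riemann G x l k i j * w k * u i * v j := by
    intro w l
    have e1 : fderiv ℝ (GamL G) x u v w l =
        ∑ k, ∑ i, ∑ j, pderiv i (fun y => christoffel G y l j k) x * (w k * u i * v j) := by
      rw [chcalc_fderiv_GamL hd]
      simp only [Finset.sum_mul]
      rw [← chcalc_s3b (fun k i j => pderiv i (fun y => christoffel G y l j k) x * (w k * u i * v j))]
      exact Finset.sum_congr rfl fun j _ => Finset.sum_congr rfl fun k _ =>
        Finset.sum_congr rfl fun i _ => by ring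
    have e2 : fderiv ℝ (GamL G) x v u w l =
        ∑ k, ∑ i, ∑ j, pderiv j (fun y => christoffel G y l i k) x * (w k * u i * v j) := by
      rw [chcalc_fderiv_GamL hd]
      simp only [Finset.sum_mul]
      rw [Finset.sum_comm]
      exact Finset.sum_congr rfl fun k _ => Finset.sum_congr rfl fun i _ =>
        Finset.sum_congr rfl fun j _ => by ring
    have e3 : GamL G x u (GamL G x v w) l =
        ∑ k, ∑ i, ∑ j, (∑ a, christoffel G x l i a * christoffel G x a j k) * (w k * u i * v j) := by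
      rw [GamL_apply]
      simp only [GamL_apply, Finset.sum_mul, Finset.mul_sum]
      rw [← chcalc_s4c (fun k i j a => christoffel G x l i a * christoffel G x a j k * (w k * u i * v j))]
      exact Finset.sum_congr rfl fun i _ => Finset.sum_congr rfl fun a _ =>
        Finset.sum_congr rfl fun j _ => Finset.sum_congr rfl fun k _ => by ring
    have e4 : GamL G x v (GamL G x u w) l =
        ∑ k, ∑ i, ∑ j, (∑ a, christoffel G x l j a * christoffel G x a i k) * (w k * u i * v j) := by
      rw [GamL_apply]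
      simp only [GamL_apply, Finset.sum_mul, Finset.mul_sum]
      rw [← chcalc_s4d (fun k i j a => christoffel G x l j a * christoffel G x a i k * (w k * u i * v j))]
      exact Finset.sum_congr rfl fun j _ => Finset.sum_congr rfl fun a _ =>
        Finset.sum_congr rfl fun i _ => Finset.sum_congr rfl fun k _ => by ring
    unfold curv
    rw [PiLp.sub_apply, PiLp.add_apply, PiLp.sub_apply, e1, e2, e3, e4]
    simp only [← Finset.sum_add_distrib, ← Finset.sum_sub_distrib]
    refine Finset.sum_congr rfl fun k _ => Finset.sum_congr rfl fun i _ =>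
      Finset.sum_congr rfl fun j _ => ?_
    unfold riemann
    rw [Finset.sum_sub_distrib]
    ring
  rw [gL_apply]
  unfold secNumer
  simp only [key]

end Crest.Agent.R226.G

end
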