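import Crest.Agent.R226.G0ChartA

/-!
# rid 226, part G0 (port of R244/CH to `M : Type*`, `C^∞` flow; owner helper39), file `CHChart`

Transition maps and the metric in the preferred charts.

Prefix helper lemmas with `chch_`.
-/

set_option autoImplicit false
set_option linter.unusedSectionVars false

open scoped ContDiff Manifold Topology
open Bundle Set Filter
open Crest.GeometryTopology.CoordMetric Crest.GeometryTopology.ChartCurvature Crest.GeometryTopology.Geodesic

noncomputable section

namespace Crest.Agent.R226.G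

variable {n : ℕ} {M : Type*} [TopologicalSpace M] [ChartedSpace (EE n) M] [IsManifold 𝓘(ℝ, EE n) ∞ M]

theorem chch_section (x : M) (v : EE n) :
    ContMDiffOn 𝓘(ℝ, EE n) (𝓘(ℝ, EE n).prod 𝓘(ℝ, EE n)) ∞
      (fun y : EE n => (⟨(chartAt (EE n) x).symm y,
        mfderiv 𝓘(ℝ, EE n) 𝓘(ℝ, EE n) (chartAt (EE n) x).symm y v⟩ : TangentBundle 𝓘(ℝ, EE n) M))
      (chartAt (EE n) x).target := by
  have ho : IsOpen (chartAt (EE n) x).target := (chartAt (EE n) x).open_target
  have h1 : ContMDiffOn 𝓘(ℝ, EE n) 𝓘(ℝ, EE n) ∞ (chartAt (EE n) x).symm (chartAt (EE n) x).target :=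
    contMDiffOn_chart_symm
  have h2 := h1.contMDiffOn_tangentMapWithin (m := ∞) (by simp) ho.uniqueMDiffOn
  have h3 : ContMDiffOn 𝓘(ℝ, EE n) (𝓘(ℝ, EE n).prod 𝓘(ℝ, EE n)) ∞
      (fun y : EE n => (⟨y, v⟩ : TangentBundle 𝓘(ℝ, EE n) (EE n))) (chartAt (EE n) x).target :=
    fun y _ => contMDiffWithinAt_vectorSpace_iff_contDiffWithinAt.2 contDiffWithinAt_const
  refine (h2.comp h3 fun y hy => hy).congr fun y hy => ?_
  simp only [Function.comp, tangentMapWithin, mfderivWithin_of_isOpen ho hy]

theorem chch_inner (g : RM n M) (x : M) (u v : EE n) :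
    ContDiffOn ℝ ∞ (fun y : EE n => g.inner ((chartAt (EE n) x).symm y)
      (mfderiv 𝓘(ℝ, EE n) 𝓘(ℝ, EE n) (chartAt (EE n) x).symm y u)
      (mfderiv 𝓘(ℝ, EE n) 𝓘(ℝ, EE n) (chartAt (EE n) x).symm y v)) (chartAt (EE n) x).target := by
  rw [← contMDiffOn_iff_contDiffOn]
  intro y hy
  have hb : ContMDiffWithinAt 𝓘(ℝ, EE n) 𝓘(ℝ, EE n) ∞ (chartAt (EE n) x).symm
      (chartAt (EE n) x).target y := contMDiffOn_chart_symm y hy
  have : ContMDiffWithinAt 𝓘(ℝ, EE n) (𝓘(ℝ, EE n).prod 𝓘(ℝ)) ∞
      (fun m : EE n => TotalSpace.mk' ℝ (E := Bundle.Trivial M ℝ) ((chartAt (EE n) x).symm m)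
        (g.inner ((chartAt (EE n) x).symm m)
          (mfderiv 𝓘(ℝ, EE n) 𝓘(ℝ, EE n) (chartAt (EE n) x).symm m u)
          (mfderiv 𝓘(ℝ, EE n) 𝓘(ℝ, EE n) (chartAt (EE n) x).symm m v)))
      (chartAt (EE n) x).target y := by
    apply ContMDiffWithinAt.clm_bundle_apply₂ (F₁ := EE n) (F₂ := EE n)
    · exact ContMDiffAt.comp_contMDiffWithinAt y g.contMDiff.contMDiffAt hb
    · exact chch_section x u y hy
    · exact chch_section x v y hy
  simp only [contMDiffWithinAt_totalSpace] at this
  exact this.2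

theorem chch_gL (G : MetricField n) (y u v : EE n) : gL G y u v = ∑ i, ∑ j, u i * G y i j * v j := by
  simp only [gL, _root_.sum_apply, _root_.smul_apply,
    ContinuousLinearMap.smulRight_apply, smul_eq_mul]
  refine Finset.sum_congr rfl fun i _ => Finset.sum_congr rfl fun j _ => ?_
  simp
  ring

/-- Smoothness of the coefficients: `y ↦ ⟨(chartAt x).symm y, mfderiv (chartAt x).symm y (single i 1)⟩` is a smooth map
from the chart target to the tangent bundle (`ContMDiffOn.contMDiffOn_tangentMapWithin`, or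
`(trivializationAt _ _ x).symm`-sections: `Trivialization.contMDiffOn_symm`), and the inner product of two smooth
sections is smooth (`ContMDiffWithinAt.inner_bundle` with the `RiemannianBundle` instance of `g`, or
`ContMDiffWithinAt.clm_bundle_apply₂` applied to `g.contMDiff`).  Positive definiteness: `chartG_eq` and
injectivity of the derivative of a transition map (`fderiv_tr_comp`, `fderiv_tr_self`). -/
theorem isRiemannianOn_metricInChart (g : RM n M) (x : M) :
    IsRiemannianOn (metricInChart g x) (chartAt (EE n) x).target := by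
  refine ⟨(chartAt (EE n) x).open_target, fun i j => chch_inner g x _ _, fun y hy => ?_⟩
  rw [Matrix.posDef_iff_dotProduct_mulVec]
  refine ⟨?_, fun w hw => ?_⟩
  · ext i j
    simp only [metricInChart, Matrix.conjTranspose_apply, Matrix.of_apply, star_trivial]
    exact g.symm _ _ _
  · have hm : (chartAt (EE n) x).symm y ∈ (chartAt (EE n) x).source := (chartAt (EE n) x).map_target hy
    have hy' : chartAt (EE n) x ((chartAt (EE n) x).symm y) = y := (chartAt (EE n) x).right_inv hy
    have h1 := chartG_eq g hm (WithLp.toLp 2 w) (WithLp.toLp 2 w)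
    have h2 : fderiv ℝ (tr n x ((chartAt (EE n) x).symm y)) (chartAt (EE n) x ((chartAt (EE n) x).symm y))
        (WithLp.toLp 2 w) ≠ 0 := by
      intro h0
      have h3 := fderiv_tr_comp hm (mem_chart_source (EE n) _) hm (WithLp.toLp 2 w)
      rw [h0, map_zero, fderiv_tr_self hm] at h3
      exact hw (by simpa using congrArg WithLp.ofLp h3.symm)
    have h4 := qT_pos g ((chartAt (EE n) x).symm y) h2
    rw [← h1, hy', chartG, chch_gL] at h4
    simpa [dotProduct, Matrix.mulVec, Finset.mul_sum, mul_assoc] using h4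

theorem isLC_chart (g : RM n M) (x : M) : IsLC (chartG g x) (chartΓ g x) (chartAt (EE n) x).target :=
  isLC_of_riem (isRiemannianOn_metricInChart g x)

end Crest.Agent.R226.G

end
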