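import Crest.Agent.R226.G0Calc

/-!
# rid 226, part G0 (port of R244/CH to `M : Type*`, `C^∞` flow; owner helper39), file `CHChartA`

Transition maps and the metric in the preferred charts.

Prefix helper lemmas with `chca_`.
-/

set_option autoImplicit false
set_option linter.unusedSectionVars false

open scoped ContDiff Manifold Topology
open Bundle Set Filter
open Crest.GeometryTopology.CoordMetric Crest.GeometryTopology.ChartCurvature Crest.GeometryTopology.Geodesic

noncomputable section

namespace Crest.Agent.R226.G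

variable {n : ℕ} {M : Type*} [TopologicalSpace M] [ChartedSpace (EE n) M] [IsManifold 𝓘(ℝ, EE n) ∞ M]

theorem tr_apply {x z m : M} (hx : m ∈ (chartAt (EE n) x).source) :
    tr n x z (chartAt (EE n) x m) = chartAt (EE n) z m := by
  simp only [tr, Function.comp_apply, (chartAt (EE n) x).left_inv hx]

/-- `contDiffOn_ext_coord_change` / `contDiffWithinAt_ext_coord_change` with `range 𝓘(ℝ, E) = univ`, or
`contMDiffOn_chart`, `contMDiffOn_chart_symm` and `contMDiffAt_iff_contDiffAt`. -/
theorem tr_smooth {x z m : M} (hx : m ∈ (chartAt (EE n) x).source) (hz : m ∈ (chartAt (EE n) z).source) :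
    ContDiffAt ℝ ∞ (tr n x z) (chartAt (EE n) x m) := by
  have h1 : ContMDiffAt 𝓘(ℝ, EE n) 𝓘(ℝ, EE n) ∞ (chartAt (EE n) x).symm (chartAt (EE n) x m) :=
    contMDiffOn_chart_symm.contMDiffAt
      ((chartAt (EE n) x).open_target.mem_nhds ((chartAt (EE n) x).map_source hx))
  have h2 : ContMDiffAt 𝓘(ℝ, EE n) 𝓘(ℝ, EE n) ∞ (chartAt (EE n) z)
      ((chartAt (EE n) x).symm (chartAt (EE n) x m)) := by
    rw [(chartAt (EE n) x).left_inv hx]
    exact contMDiffOn_chart.contMDiffAt ((chartAt (EE n) z).open_source.mem_nhds hz)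
  exact contMDiffAt_iff_contDiffAt.1 (h2.comp _ h1)

theorem fderiv_tr_self {x m : M} (hx : m ∈ (chartAt (EE n) x).source) (v : EE n) :
    fderiv ℝ (tr n x x) (chartAt (EE n) x m) v = v := by
  have h : tr n x x =ᶠ[𝓝 (chartAt (EE n) x m)] id := by
    filter_upwards [(chartAt (EE n) x).open_target.mem_nhds ((chartAt (EE n) x).map_source hx)] with y hy
    exact (chartAt (EE n) x).right_inv hy
  rw [h.fderiv_eq, fderiv_id]
  rfl

/-- `tr x z = tr y z ∘ tr x y` near the point; chain rule. -/
theorem fderiv_tr_comp {x y z m : M} (hx : m ∈ (chartAt (EE n) x).source) (hy : m ∈ (chartAt (EE n) y).source)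
    (hz : m ∈ (chartAt (EE n) z).source) (v : EE n) :
    fderiv ℝ (tr n y z) (chartAt (EE n) y m) (fderiv ℝ (tr n x y) (chartAt (EE n) x m) v) =
      fderiv ℝ (tr n x z) (chartAt (EE n) x m) v := by
  have h : tr n x z =ᶠ[𝓝 (chartAt (EE n) x m)] tr n y z ∘ tr n x y := by
    have hc : ContinuousAt (chartAt (EE n) x).symm (chartAt (EE n) x m) :=
      (chartAt (EE n) x).continuousAt_symm ((chartAt (EE n) x).map_source hx)
    have hy' : (chartAt (EE n) y).source ∈ 𝓝 ((chartAt (EE n) x).symm (chartAt (EE n) x m)) := by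
      rw [(chartAt (EE n) x).left_inv hx]
      exact (chartAt (EE n) y).open_source.mem_nhds hy
    filter_upwards [hc hy'] with w hw
    simp only [tr, Function.comp_apply]
    rw [(chartAt (EE n) y).left_inv hw]
  have h1 : DifferentiableAt ℝ (tr n x y) (chartAt (EE n) x m) :=
    (tr_smooth hx hy).differentiableAt (by simp)
  have h2 : DifferentiableAt ℝ (tr n y z) (tr n x y (chartAt (EE n) x m)) := by
    rw [tr_apply hx]
    exact (tr_smooth hy hz).differentiableAt (by simp)
  rw [h.fderiv_eq, fderiv_comp _ h2 h1, tr_apply hx]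
  rfl

/-- The manifold derivative of the inverse chart is the derivative of a transition map (unfold `mfderiv`;
`mdifferentiableAt_atlas_symm`, `writtenInExtChartAt`, `mfld_simps`, `fderivWithin_univ`). -/
theorem mfderiv_chart_symm {x m : M} (hx : m ∈ (chartAt (EE n) x).source) (v : EE n) :
    mfderiv 𝓘(ℝ, EE n) 𝓘(ℝ, EE n) (chartAt (EE n) x).symm (chartAt (EE n) x m) v =
      fderiv ℝ (tr n x m) (chartAt (EE n) x m) v := by
  have hd : MDifferentiableAt 𝓘(ℝ, EE n) 𝓘(ℝ, EE n) (chartAt (EE n) x).symm (chartAt (EE n) x m) :=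
    mdifferentiableAt_atlas_symm (chart_mem_atlas _ x) ((chartAt (EE n) x).map_source hx)
  rw [hd.mfderiv]
  simp only [writtenInExtChartAt, mfld_simps, fderivWithin_univ, (chartAt (EE n) x).left_inv hx]
  rfl

theorem chca_expand (u : EE n) : u = ∑ i, u i • (EuclideanSpace.single i (1 : ℝ) : EE n) := by
  conv_lhs => rw [← (EuclideanSpace.basisFun (Fin n) ℝ).sum_repr u]
  simp

/-- Bilinear expansion `u = ∑ i, u i • single i 1` in `metricInChart`. -/
theorem chartG_eq (g : RM n M) {x m : M} (hx : m ∈ (chartAt (EE n) x).source) (u v : EE n) :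
    chartG g x (chartAt (EE n) x m) u v =
      qT g m (fderiv ℝ (tr n x m) (chartAt (EE n) x m) u) (fderiv ℝ (tr n x m) (chartAt (EE n) x m) v) := by
  set D := fderiv ℝ (tr n x m) (chartAt (EE n) x m) with hD
  have hG : ∀ i j, metricInChart g x (chartAt (EE n) x m) i j =
      qT g m (D (EuclideanSpace.single i 1)) (D (EuclideanSpace.single j 1)) := fun i j => by
    have key : ∀ (m' : M), m' = m → ∀ a b : EE n, g.inner m' a b = qT g m a b := by
      rintro _ rfl a b
      rfl
    simp only [metricInChart, Matrix.of_apply]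
    rw [mfderiv_chart_symm hx, mfderiv_chart_symm hx]
    exact key _ ((chartAt (EE n) x).left_inv hx) _ _
  rw [chartG, gL_apply]
  conv_rhs => rw [chca_expand u, chca_expand v]
  simp only [map_sum, map_smul, sum_apply, smul_apply, smul_eq_mul, hG]
  rw [Finset.sum_comm]
  refine Finset.sum_congr rfl fun j _ => ?_
  rw [Finset.mul_sum]
  exact Finset.sum_congr rfl fun i _ => by ring

theorem qT_symm (g : RM n M) (x : M) (u v : EE n) : qT g x u v = qT g x v u := by
  exact g.symm x u v

theorem qT_pos (g : RM n M) (x : M) {v : EE n} (hv : v ≠ 0) : 0 < qT g x v v := by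
  exact g.pos x v hv

theorem qT_nonneg (g : RM n M) (x : M) (v : EE n) : 0 ≤ qT g x v v := by
  by_cases hv : v = 0
  · simp [hv]
  · exact (qT_pos g x hv).le

theorem chartG_center (g : RM n M) (x : M) (u v : EE n) :
    chartG g x (chartAt (EE n) x x) u v = qT g x u v := by
  rw [chartG_eq g (mem_chart_source _ x), fderiv_tr_self (mem_chart_source _ x),
    fderiv_tr_self (mem_chart_source _ x)]

/-- The transition maps are isometries between the chart metrics. -/
theorem chartG_trans (g : RM n M) {x z m : M} (hx : m ∈ (chartAt (EE n) x).source)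
    (hz : m ∈ (chartAt (EE n) z).source) (u v : EE n) :
    chartG g x (chartAt (EE n) x m) u v =
      chartG g z (chartAt (EE n) z m) (fderiv ℝ (tr n x z) (chartAt (EE n) x m) u)
        (fderiv ℝ (tr n x z) (chartAt (EE n) x m) v) := by
  rw [chartG_eq g hx, chartG_eq g hz, fderiv_tr_comp hx hz (mem_chart_source _ m),
    fderiv_tr_comp hx hz (mem_chart_source _ m)]

end Crest.Agent.R226.G

end
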