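import Crest.Prelude.Def_Geodesic

/-!
# rid 226, part G0 (port of R244/CH to `M : Type*`, `C^∞` flow; owner helper39) (Cartan–Hadamard): definitions

Goal of part CH (`CH.lean`): a compact connected manifold with a smooth metric of non-positive sectional curvature is
covered by `ℝⁿ` (through `exp`), and `ℝⁿ` carries a deck-invariant distance with CN-midpoints and a systole bound.
-/

set_option autoImplicit false

open scoped ContDiff Manifold Topology
open Bundle Set Filter
open Crest.GeometryTopology.CoordMetric Crest.GeometryTopology.ChartCurvature Crest.GeometryTopology.Geodesic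

noncomputable section

namespace Crest.Agent.R226.G

/-- the model space -/
abbrev EE (n : ℕ) : Type := EuclideanSpace ℝ (Fin n)

/-! ### coordinate calculus -/

/-- A coordinate metric field as a field of continuous bilinear forms. -/
def gL {n : ℕ} (G : MetricField n) (x : EE n) : EE n →L[ℝ] EE n →L[ℝ] ℝ :=
  ∑ i, ∑ j, G x i j •
    (EuclideanSpace.proj i : EE n →L[ℝ] ℝ).smulRight (EuclideanSpace.proj j : EE n →L[ℝ] ℝ)

/-- The Christoffel symbols as a field of continuous bilinear maps. -/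
def GamL {n : ℕ} (G : MetricField n) (x : EE n) : EE n →L[ℝ] EE n →L[ℝ] EE n :=
  ∑ k, ∑ i, ∑ j, christoffel G x k i j •
    (EuclideanSpace.proj i : EE n →L[ℝ] ℝ).smulRight
      ((EuclideanSpace.proj j : EE n →L[ℝ] ℝ).smulRight (EuclideanSpace.single k (1 : ℝ) : EE n))

section abstract

variable {E : Type} [NormedAddCommGroup E] [NormedSpace ℝ E]

/-- `R(u,v)w` for a field of Christoffel maps. -/
def curv (Γ : E → E →L[ℝ] E →L[ℝ] E) (x u v w : E) : E :=
  fderiv ℝ Γ x u v w - fderiv ℝ Γ x v u w + Γ x u (Γ x v w) - Γ x v (Γ x u w)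

/-- The geodesic spray on `E × E`. -/
def spray (Γ : E → E →L[ℝ] E →L[ℝ] E) (q : E × E) : E × E := (q.2, -Γ q.1 q.2 q.2)

/-- `g` is a smooth Riemannian metric on the open set `U` and `Γ` is its Levi-Civita connection. -/
structure IsLC (g : E → E →L[ℝ] E →L[ℝ] ℝ) (Γ : E → E →L[ℝ] E →L[ℝ] E) (U : Set E) : Prop where
  isOpen : IsOpen U
  g_smooth : ContDiffOn ℝ ∞ g U
  Γ_smooth : ContDiffOn ℝ ∞ Γ U
  g_symm : ∀ x ∈ U, ∀ u v, g x u v = g x v u
  g_pos : ∀ x ∈ U, ∀ v, v ≠ 0 → 0 < g x v v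
  Γ_symm : ∀ x ∈ U, ∀ u v, Γ x u v = Γ x v u
  compat : ∀ x ∈ U, ∀ w u v, fderiv ℝ g x w u v = g x (Γ x w u) v + g x u (Γ x w v)

end abstract

/-! ### flows of a vector field given in charts -/

/-- A vector field on the space `X`, given in the charts `χ i`, with a proper first integral `H`. -/
structure FlowAtlas (X : Type*) (F : Type) (ι : Type*) [TopologicalSpace X] [NormedAddCommGroup F] [NormedSpace ℝ F] where
  χ : ι → OpenPartialHomeomorph X F
  V : ι → F → F
  H : X → ℝ
  cover : ∀ x, ∃ i, x ∈ (χ i).source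
  smooth : ∀ i, ContDiffOn ℝ ∞ (V i) (χ i).target
  trans_smooth : ∀ i j x, x ∈ (χ i).source → x ∈ (χ j).source →
    ContDiffAt ℝ ∞ (χ j ∘ (χ i).symm) (χ i x)
  trans_push : ∀ i j x, x ∈ (χ i).source → x ∈ (χ j).source →
    fderiv ℝ (χ j ∘ (χ i).symm) (χ i x) (V i (χ i x)) = V j (χ j x)
  H_cont : Continuous H
  H_cpt : ∀ r, IsCompact {x | H x ≤ r}
  H_diff : ∀ i x, x ∈ (χ i).source → DifferentiableAt ℝ (H ∘ (χ i).symm) (χ i x)
  H_inv : ∀ i x, x ∈ (χ i).source → fderiv ℝ (H ∘ (χ i).symm) (χ i x) (V i (χ i x)) = 0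

section flow

variable {X ι : Type*} {F : Type} [TopologicalSpace X] [NormedAddCommGroup F] [NormedSpace ℝ F]

/-- `σ` solves the equation at the time `t`. -/
def FlowAtlas.IsSolAt (A : FlowAtlas X F ι) (σ : ℝ → X) (t : ℝ) : Prop :=
  ContinuousAt σ t ∧
    ∀ i, σ t ∈ (A.χ i).source → HasDerivAt (fun s => A.χ i (σ s)) (A.V i (A.χ i (σ t))) t

/-- `Φ` is the (global) flow; no regularity in the space variable is recorded. -/
structure FlowAtlas.IsPreFlow (A : FlowAtlas X F ι) (Φ : ℝ → X → X) : Prop where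
  zero : ∀ x, Φ 0 x = x
  add : ∀ s t x, Φ (s + t) x = Φ s (Φ t x)
  sol : ∀ x t, A.IsSolAt (fun s => Φ s x) t
  H_eq : ∀ t x, A.H (Φ t x) = A.H x
  uniq : ∀ σ : ℝ → X, (∀ t, A.IsSolAt σ t) → ∀ t, σ t = Φ t (σ 0)

/-- `Φ` is the global flow, jointly continuous and `C^∞` in charts. -/
structure FlowAtlas.IsFlow (A : FlowAtlas X F ι) (Φ : ℝ → X → X) : Prop extends A.IsPreFlow Φ where
  cont : Continuous fun q : ℝ × X => Φ q.1 q.2
  smooth : ∀ i j x t, x ∈ (A.χ i).source → Φ t x ∈ (A.χ j).source →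
    ContDiffAt ℝ ∞ (fun q : ℝ × F => A.χ j (Φ q.1 ((A.χ i).symm q.2))) (t, A.χ i x)

end flow

/-! ### the manifold side -/

section manifold

variable (n : ℕ) (M : Type*) [TopologicalSpace M] [ChartedSpace (EE n) M] [IsManifold 𝓘(ℝ, EE n) ∞ M]

/-- smooth Riemannian metrics on `M` -/
abbrev RM : Type _ :=
  ContMDiffRiemannianMetric 𝓘(ℝ, EE n) ∞ (EE n) (fun x : M => TangentSpace 𝓘(ℝ, EE n) x)

/-- the tangent bundle -/
abbrev TM : Type _ := TangentBundle 𝓘(ℝ, EE n) M

variable {M}

/-- transition map from the preferred chart at `x` to the preferred chart at `z` -/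
def tr (x z : M) : EE n → EE n := chartAt (EE n) z ∘ (chartAt (EE n) x).symm

/-- the chart of the tangent bundle over the preferred chart at `x` -/
def tmChart (x : M) : OpenPartialHomeomorph (TM n M) (EE n × EE n) :=
  (trivializationAt (EE n) (TangentSpace 𝓘(ℝ, EE n)) x).toOpenPartialHomeomorph ≫ₕ
    (chartAt (EE n) x).prod (OpenPartialHomeomorph.refl (EE n))

variable {n}

/-- the tangent vector at `x` with coordinates `v` in the preferred chart at `x` -/
def mkT (x : M) (v : EE n) : TM n M := ⟨x, v⟩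

/-- the coordinates of a tangent vector in the preferred chart at its base point -/
def vecT (ξ : TM n M) : EE n := ξ.2

/-- the inner product at `x`, on coordinates in the preferred chart at `x` -/
def qT (g : RM n M) (x : M) : EE n →L[ℝ] EE n →L[ℝ] ℝ := g.inner x

/-- the metric in the preferred chart at `x` -/
def chartG (g : RM n M) (x : M) : EE n → EE n →L[ℝ] EE n →L[ℝ] ℝ := gL (metricInChart g x)

/-- the Christoffel maps in the preferred chart at `x` -/
def chartΓ (g : RM n M) (x : M) : EE n → EE n →L[ℝ] EE n →L[ℝ] EE n := GamL (metricInChart g x)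

/-- squared speed -/
def energy (g : RM n M) (ξ : TM n M) : ℝ := qT g ξ.proj (vecT ξ) (vecT ξ)

/-- `σ` solves the geodesic equation (first-order form on the tangent bundle) at the time `t`. -/
def IsGeoAt (g : RM n M) (σ : ℝ → TM n M) (t : ℝ) : Prop :=
  ContinuousAt σ t ∧ ∀ z : M, (σ t).proj ∈ (chartAt (EE n) z).source →
    HasDerivAt (fun s => tmChart n z (σ s)) (spray (chartΓ g z) (tmChart n z (σ t))) t

/-- `Φ` is the geodesic flow of `g`. -/
structure IsGeoFlow (g : RM n M) (Φ : ℝ → TM n M → TM n M) : Prop where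
  zero : ∀ ξ, Φ 0 ξ = ξ
  add : ∀ s t ξ, Φ (s + t) ξ = Φ s (Φ t ξ)
  sol : ∀ ξ t, IsGeoAt g (fun s => Φ s ξ) t
  energy_eq : ∀ t ξ, energy g (Φ t ξ) = energy g ξ
  uniq : ∀ σ : ℝ → TM n M, (∀ t, IsGeoAt g σ t) → ∀ t, σ t = Φ t (σ 0)
  cont : Continuous fun q : ℝ × TM n M => Φ q.1 q.2
  smooth : ∀ (x z : M) (ξ : TM n M) (t : ℝ), ξ.proj ∈ (chartAt (EE n) x).source →
    (Φ t ξ).proj ∈ (chartAt (EE n) z).source →
    ContDiffAt ℝ ∞ (fun q : ℝ × (EE n × EE n) => tmChart n z (Φ q.1 ((tmChart n x).symm q.2)))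
      (t, tmChart n x ξ)

/-- the exponential map attached to a flow on the tangent bundle -/
def expT (Φ : ℝ → TM n M → TM n M) (x : M) (v : EE n) : M := (Φ 1 (mkT x v)).proj

end manifold

end Crest.Agent.R226.G

end
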