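import Crest.Agent.R226.G0TM

/-!
# rid 226, part G0 (port of R244/CH to `M : Type*`, `C^∞` flow; owner helper39), file `CHExp`

Elementary properties of the exponential map.

Prefix helper lemmas with `chexp_`.
-/

set_option autoImplicit false
set_option linter.unusedSectionVars false

open scoped ContDiff Manifold Topology
open Bundle Set Filter
open Crest.GeometryTopology.CoordMetric Crest.GeometryTopology.ChartCurvature Crest.GeometryTopology.Geodesic

noncomputable section

namespace Crest.Agent.R226.G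

variable {n : ℕ} {M : Type*} [TopologicalSpace M] [ChartedSpace (EE n) M] [IsManifold 𝓘(ℝ, EE n) ∞ M]
  {g : RM n M} {Φ : ℝ → TM n M → TM n M}

theorem chexp_fst {c : ℝ → EE n × EE n} {c' : EE n × EE n} {t : ℝ} (h : HasDerivAt c c' t) :
    HasDerivAt (fun s => (c s).1) c'.1 t :=
  (ContinuousLinearMap.fst ℝ (EE n) (EE n)).hasFDerivAt.comp_hasDerivAt t h

theorem chexp_snd {c : ℝ → EE n × EE n} {c' : EE n × EE n} {t : ℝ} (h : HasDerivAt c c' t) :
    HasDerivAt (fun s => (c s).2) c'.2 t :=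
  (ContinuousLinearMap.snd ℝ (EE n) (EE n)).hasFDerivAt.comp_hasDerivAt t h

/-- Homogeneity: `σ s = a • Φ (a s) ξ` (fibrewise scaling) solves the geodesic equation (`tmChart_smul`,
`continuous_smulT`, chain rule; `spray Γ (y, a • w) = (a • w, a • a • (-Γ y w w))`); conclude by `uniq`. -/
theorem IsGeoFlow.smul (h : IsGeoFlow g Φ) (ξ : TM n M) (a s : ℝ) :
    Φ s (mkT ξ.proj (a • vecT ξ)) = mkT (Φ (a * s) ξ).proj (a • vecT (Φ (a * s) ξ)) := by
  have key : ∀ t, IsGeoAt g (fun s => mkT (Φ (a * s) ξ).proj (a • vecT (Φ (a * s) ξ))) t := by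
    intro t
    refine ⟨(continuous_smulT a).continuousAt.comp (f := fun s => Φ (a * s) ξ)
      ((h.cont.comp ((continuous_const_mul a).prodMk continuous_const)).continuousAt), fun z hz => ?_⟩
    have hd := ((h.sol ξ (a * t)).2 z hz).scomp t (hasDerivAt_const_mul a)
    simp only [tmChart_smul]
    refine ((chexp_fst hd).prodMk ((chexp_snd hd).const_smul a)).congr_deriv ?_
    simp only [spray, Prod.smul_mk, map_smul, _root_.smul_apply, smul_neg]
  have := h.uniq _ key s
  simp only [mul_zero, h.zero] at this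
  exact this.symm

theorem IsGeoFlow.expT_smul (h : IsGeoFlow g Φ) (x : M) (v : EE n) (s : ℝ) :
    expT Φ x (s • v) = (Φ s (mkT x v)).proj := by
  have := congrArg (fun ξ : TM n M => ξ.proj) (h.smul (mkT x v) s 1)
  rw [mul_one] at this
  exact this

theorem IsGeoFlow.expT_zero (h : IsGeoFlow g Φ) (x : M) : expT Φ x 0 = x := by
  have := h.expT_smul x 0 0
  rwa [smul_zero, h.zero] at this

theorem IsGeoFlow.proj_zero (h : IsGeoFlow g Φ) (x : M) (s : ℝ) : (Φ s (mkT x 0)).proj = x := by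
  rw [← h.expT_smul, smul_zero, h.expT_zero]

theorem IsGeoFlow.continuous_expT (h : IsGeoFlow g Φ) (x : M) : Continuous (expT Φ x) := by
  exact continuous_projT.comp (h.cont.comp (continuous_const.prodMk (continuous_mkT x)))

/-- Take `v' = vecT (Φ a (mkT x v))`. -/
theorem IsGeoFlow.shift (h : IsGeoFlow g Φ) (x : M) (v : EE n) (a : ℝ) :
    ∃ v', qT g (expT Φ x (a • v)) v' v' = qT g x v v ∧
      ∀ s : ℝ, expT Φ (expT Φ x (a • v)) (s • v') = expT Φ x ((s + a) • v) := by
  refine ⟨vecT (Φ a (mkT x v)), ?_, fun s => ?_⟩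
  · rw [h.expT_smul]
    exact h.energy_eq a (mkT x v)
  · rw [h.expT_smul, h.expT_smul, h.expT_smul, mkT_vecT, h.add]

/-- `O = {ξ | ∃ y, ∀ s ∈ [0,1], (Φ s ξ).proj ∈ interior (V y)}` is open (tube lemma,
`IsCompact.eventually_forall_of_forall_eventually`) and contains the zero section (`proj_zero`).  The compact sets
`{energy ≤ 1/(k+1)} \ O` decrease and have empty intersection (`qT_pos`), so one of them is empty. -/
theorem IsGeoFlow.small [T2Space M] [CompactSpace M] (h : IsGeoFlow g Φ) (V : M → Set M) (hV : ∀ y, V y ∈ 𝓝 y) :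
    ∃ r > 0, ∀ x v, qT g x v v ≤ r → ∃ y, ∀ s ∈ Icc (0 : ℝ) 1, expT Φ x (s • v) ∈ V y := by
  set O : Set (TM n M) := {ξ | ∃ y, ∀ s ∈ Icc (0 : ℝ) 1, (Φ s ξ).proj ∈ interior (V y)} with hO
  have hOo : IsOpen O := by
    refine isOpen_iff_mem_nhds.2 fun ξ ⟨y, hy⟩ => ?_
    have : ∀ᶠ ξ' in 𝓝 ξ, ∀ s ∈ Icc (0 : ℝ) 1, (Φ s ξ').proj ∈ interior (V y) :=
      isCompact_Icc.eventually_forall_of_forall_eventually fun s hs =>
        ((continuous_projT.comp (h.cont.comp continuous_swap)).continuousAt (x := (ξ, s))).eventually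
          (isOpen_interior.mem_nhds (hy s hs))
    exact this.mono fun ξ' h' => ⟨y, h'⟩
  have hK : ∃ k : ℕ, {ξ : TM n M | energy g ξ ≤ 1 / ((k : ℝ) + 1)} \ O = ∅ := by
    by_contra hc
    push Not at hc
    obtain ⟨ξ, hξ⟩ := IsCompact.nonempty_iInter_of_sequence_nonempty_isCompact_isClosed
      (fun k : ℕ => {ξ : TM n M | energy g ξ ≤ 1 / ((k : ℝ) + 1)} \ O)
      (fun k => sdiff_subset_sdiff_left fun ξ hξ =>
        le_trans (α := ℝ) hξ (Nat.one_div_le_one_div k.le_succ))
      hc ((isCompact_energy_le g _).diff hOo)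
      fun k => (isClosed_le (continuous_energy g) continuous_const).sdiff hOo
    rw [mem_iInter] at hξ
    have h0 : vecT ξ = 0 := by
      by_contra h0
      obtain ⟨k, hk⟩ := exists_nat_one_div_lt (qT_pos g ξ.proj h0)
      exact hk.not_ge (hξ k).1
    refine (hξ 0).2 ⟨ξ.proj, fun s _ => ?_⟩
    rw [← mkT_vecT ξ, h0, h.proj_zero]
    exact mem_interior_iff_mem_nhds.2 (hV _)
  obtain ⟨k, hk⟩ := hK
  refine ⟨1 / ((k : ℝ) + 1), Nat.one_div_pos_of_nat, fun x v hv => ?_⟩
  obtain ⟨y, hy⟩ : mkT x v ∈ O := sdiff_eq_empty.1 hk hv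
  exact ⟨y, fun s hs => by rw [h.expT_smul]; exact interior_subset (hy s hs)⟩

end Crest.Agent.R226.G

end
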