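import Crest.Agent.R226.G0Flow1

/-!
# rid 226, part G0 (port of R244/CH to `M : Type*`, `C^∞` flow; owner helper39), file `CHFlow2`

Global existence of the flow.

Prefix helper lemmas with `chfl2_`.
-/

set_option autoImplicit false
set_option linter.unusedSectionVars false

open scoped ContDiff Manifold Topology
open Bundle Set Filter
open Crest.GeometryTopology.CoordMetric Crest.GeometryTopology.ChartCurvature Crest.GeometryTopology.Geodesic

noncomputable section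

namespace Crest.Agent.R226.G

variable {X ι : Type*} {F : Type} [TopologicalSpace X] [NormedAddCommGroup F] [NormedSpace ℝ F] [FiniteDimensional ℝ F]
  (A : FlowAtlas X F ι)

/-- Local flow of a `C¹` field, staying in a given neighbourhood. -/
theorem chfl2_local {V : F → F} {y₀ : F} (hV : ContDiffAt ℝ 1 V y₀) {U : Set F} (hU : U ∈ 𝓝 y₀) :
    ∃ ε > 0, ∀ᶠ y in 𝓝 y₀, ∃ c : ℝ → F, c 0 = y ∧
      ∀ t ∈ Ioo (-ε) ε, c t ∈ U ∧ HasDerivAt c (V (c t)) t := by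
  have : CompleteSpace F := FiniteDimensional.complete ℝ F
  obtain ⟨ε, hε, a, r, L, K, hr, hpl⟩ := IsPicardLindelof.of_contDiffAt_one hV
  obtain ⟨α, hα, hc⟩ := (hpl 0).exists_forall_mem_closedBall_eq_hasDerivWithinAt_continuousOn
  have hr' : (0 : ℝ) < r := hr
  have hn : Metric.closedBall y₀ r ×ˢ Icc (0 - ε) (0 + ε) ∈ 𝓝 (y₀, (0 : ℝ)) :=
    prod_mem_nhds (Metric.closedBall_mem_nhds y₀ hr') (Icc_mem_nhds (by linarith) (by linarith))
  have h0 : α (y₀, 0) = y₀ := (hα y₀ (Metric.mem_closedBall_self hr'.le)).1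
  have hca : ContinuousAt α (y₀, 0) := hc.continuousAt hn
  have hpre : α ⁻¹' U ∈ 𝓝 (y₀, (0 : ℝ)) := hca.preimage_mem_nhds (h0.symm ▸ hU)
  obtain ⟨W, hW, J, hJ, hWJ⟩ := mem_nhds_prod_iff.1 hpre
  obtain ⟨δ, hδ, hδJ⟩ := Metric.mem_nhds_iff.1 hJ
  refine ⟨min ε δ, lt_min hε hδ, ?_⟩
  filter_upwards [hW, Metric.closedBall_mem_nhds y₀ hr'] with y hy hy'
  refine ⟨fun t => α (y, t), (hα y hy').1, fun t ht => ⟨?_, ?_⟩⟩
  · refine hWJ (mk_mem_prod hy (hδJ ?_))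
    rw [Metric.mem_ball, Real.dist_eq, sub_zero, abs_lt]
    exact ⟨by linarith [ht.1, min_le_right ε δ], by linarith [ht.2, min_le_right ε δ]⟩
  · have h1 : 0 - ε < t := by linarith [ht.1, min_le_left ε δ]
    have h2 : t < 0 + ε := by linarith [ht.2, min_le_left ε δ]
    exact ((hα y hy').2 t ⟨h1.le, h2.le⟩).hasDerivAt (Icc_mem_nhds h1 h2)

/-- Local existence, uniformly near a point: in a chart `i` around `x₀`, Picard–Lindelöf for the `C¹` field `V i`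
(`ContDiffAt.exists_forall_mem_closedBall_exists_eq_forall_mem_Ioo_hasDerivAt` or the `IsPicardLindelof` theorems with a
closed ball inside the target, so that the solutions stay in the target), then `isSolAt_symm`. -/
theorem FlowAtlas.exists_sol_nhds (x₀ : X) :
    ∃ ε > 0, ∀ᶠ x in 𝓝 x₀, ∃ σ : ℝ → X, σ 0 = x ∧ ∀ t ∈ Ioo (-ε) ε, A.IsSolAt σ t := by
  obtain ⟨i, hi⟩ := A.cover x₀
  have ht : A.χ i x₀ ∈ (A.χ i).target := (A.χ i).map_source hi
  have hU : (A.χ i).target ∈ 𝓝 (A.χ i x₀) := (A.χ i).open_target.mem_nhds ht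
  have hV : ContDiffAt ℝ 1 (A.V i) (A.χ i x₀) :=
    ((A.smooth i).contDiffAt hU).of_le (by exact_mod_cast le_top)
  obtain ⟨ε, hε, h⟩ := chfl2_local hV hU
  refine ⟨ε, hε, ?_⟩
  have h' := ((A.χ i).continuousAt hi).eventually h
  filter_upwards [h', (A.χ i).open_source.mem_nhds hi] with x hx hxs
  obtain ⟨c, hc0, hc⟩ := hx
  refine ⟨fun s => (A.χ i).symm (c s), ?_, fun t ht => A.isSolAt_symm (hc t ht).1 (hc t ht).2⟩
  simp only [hc0]
  exact (A.χ i).left_inv hxs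

/-- Uniform time on a compact set (`IsCompact.induction_on` or a finite subcover). -/
theorem FlowAtlas.exists_sol_compact {K : Set X} (hK : IsCompact K) :
    ∃ ε > 0, ∀ x ∈ K, ∃ σ : ℝ → X, σ 0 = x ∧ ∀ t ∈ Ioo (-ε) ε, A.IsSolAt σ t := by
  refine hK.induction_on (p := fun K => ∃ ε > 0, ∀ x ∈ K, ∃ σ : ℝ → X, σ 0 = x ∧
    ∀ t ∈ Ioo (-ε) ε, A.IsSolAt σ t) ⟨1, one_pos, by simp⟩ ?_ ?_ ?_
  · rintro s t hst ⟨ε, hε, h⟩
    exact ⟨ε, hε, fun x hx => h x (hst hx)⟩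
  · rintro s t ⟨ε, hε, h⟩ ⟨δ, hδ, h'⟩
    refine ⟨min ε δ, lt_min hε hδ, fun x hx => ?_⟩
    rcases hx with hx | hx
    · obtain ⟨σ, h0, hσ⟩ := h x hx
      exact ⟨σ, h0, fun u hu => hσ u ⟨by linarith [hu.1, min_le_left ε δ],
        by linarith [hu.2, min_le_left ε δ]⟩⟩
    · obtain ⟨σ, h0, hσ⟩ := h' x hx
      exact ⟨σ, h0, fun u hu => hσ u ⟨by linarith [hu.1, min_le_right ε δ],
        by linarith [hu.2, min_le_right ε δ]⟩⟩
  · intro x _
    obtain ⟨ε, hε, h⟩ := A.exists_sol_nhds x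
    exact ⟨_, mem_nhdsWithin_of_mem_nhds h, ε, hε, fun y hy => hy⟩

/-- Gluing two solutions on overlapping intervals. -/
theorem chfl2_glue [T2Space X] {σ τ : ℝ → X} {a b c d m : ℝ} (hac : a ≤ c) (hcm : c < m) (hmb : m < b)
    (hbd : b ≤ d) (hσ : ∀ t ∈ Ioo a b, A.IsSolAt σ t) (hτ : ∀ t ∈ Ioo c d, A.IsSolAt τ t)
    (hm : σ m = τ m) :
    ∃ ρ : ℝ → X, (∀ t ∈ Ioo a d, A.IsSolAt ρ t) ∧ EqOn ρ σ (Ioo a b) ∧ EqOn ρ τ (Ioo c d) := by
  classical
  have he : EqOn σ τ (Ioo c b) := A.eqOn_Ioo (t₀ := m) ⟨hcm, hmb⟩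
    (fun t ht => hσ t ⟨hac.trans_lt ht.1, ht.2⟩) (fun t ht => hτ t ⟨ht.1, ht.2.trans_le hbd⟩) hm
  have h1 : EqOn (fun t => if t < b then σ t else τ t) σ (Ioo a b) := fun t ht => if_pos ht.2
  have h2 : EqOn (fun t => if t < b then σ t else τ t) τ (Ioo c d) := by
    intro t ht
    by_cases h : t < b
    · exact (if_pos h).trans (he ⟨ht.1, h⟩)
    · exact if_neg h
  refine ⟨fun t => if t < b then σ t else τ t, fun t ht => ?_, h1, h2⟩
  by_cases h : t < b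
  · exact (hσ t ⟨ht.1, h⟩).congr (h1.eventuallyEq_of_mem (Ioo_mem_nhds ht.1 h))
  · have h' : c < t := by linarith [not_lt.1 h]
    exact (hτ t ⟨h', ht.2⟩).congr (h2.eventuallyEq_of_mem (Ioo_mem_nhds h' ht.2))

/-- Short solutions through a point of a longer solution. -/
theorem chfl2_short {x : X} {ε : ℝ}
    (h : ∀ y ∈ {y | A.H y ≤ A.H x}, ∃ σ : ℝ → X, σ 0 = y ∧ ∀ t ∈ Ioo (-ε) ε, A.IsSolAt σ t)
    {σ : ℝ → X} {a b m : ℝ} (h0 : σ 0 = x) (ha : (0 : ℝ) ∈ Ioo a b) (hm : m ∈ Ioo a b)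
    (hσ : ∀ t ∈ Ioo a b, A.IsSolAt σ t) :
    ∃ τ : ℝ → X, τ m = σ m ∧ ∀ t ∈ Ioo (m - ε) (m + ε), A.IsSolAt τ t := by
  have hH : A.H (σ m) = A.H x := by rw [← h0]; exact A.H_eq_of_isSolAt hσ hm ha
  obtain ⟨τ, hτ0, hτ⟩ := h (σ m) hH.le
  refine ⟨fun s => τ (s + -m), by simpa using hτ0, fun t ht => FlowAtlas.IsSolAt.comp_add (hτ _ ?_)⟩
  exact ⟨by linarith [ht.1], by linarith [ht.2]⟩

/-- One extension step. -/
theorem chfl2_step [T2Space X] {x : X} {ε : ℝ} (hε : 0 < ε)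
    (h : ∀ y ∈ {y | A.H y ≤ A.H x}, ∃ σ : ℝ → X, σ 0 = y ∧ ∀ t ∈ Ioo (-ε) ε, A.IsSolAt σ t)
    {σ : ℝ → X} {b : ℝ} (hb : ε ≤ b) (h0 : σ 0 = x) (hσ : ∀ t ∈ Ioo (-b) b, A.IsSolAt σ t) :
    ∃ ρ : ℝ → X, ρ 0 = x ∧ ∀ t ∈ Ioo (-(b + ε / 2)) (b + ε / 2), A.IsSolAt ρ t := by
  have hz : (0 : ℝ) ∈ Ioo (-b) b := ⟨by linarith, by linarith⟩
  obtain ⟨τ, hτ0, hτ⟩ := chfl2_short A h h0 hz (m := b - ε / 2) ⟨by linarith, by linarith⟩ hσ
  obtain ⟨τ', hτ0', hτ'⟩ := chfl2_short A h h0 hz (m := -(b - ε / 2)) ⟨by linarith, by linarith⟩ hσ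
  obtain ⟨ρ, hρ, e1, -⟩ := chfl2_glue A (a := -b) (b := b) (c := b - ε) (d := b + ε / 2) (m := b - ε / 2)
    (by linarith) (by linarith) (by linarith) (by linarith) hσ
    (fun t ht => hτ t ⟨by linarith [ht.1], by linarith [ht.2]⟩) hτ0.symm
  obtain ⟨ρ', hρ', -, e2⟩ := chfl2_glue A (a := -(b + ε / 2)) (b := -(b - ε)) (c := -b) (d := b + ε / 2)
    (m := -(b - ε / 2)) (by linarith) (by linarith) (by linarith) (by linarith)
    (fun t ht => hτ' t ⟨by linarith [ht.1], by linarith [ht.2]⟩) hρ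
    (hτ0'.trans (e1 ⟨by linarith, by linarith⟩).symm)
  exact ⟨ρ', (e2 ⟨by linarith, by linarith⟩).trans ((e1 hz).trans h0), hρ'⟩

/-- Global existence.  Let `K = {y | H y ≤ H x}` and `ε` as above.  By induction there is a solution on
`Ioo (-(ε + k ε/2)) (ε + k ε/2)` for every `k`: if `σ` is a solution on `Ioo (-b) b`, `b ≥ ε`, then `σ (b - ε/2)` and
`σ (-(b - ε/2))` lie in `K` (`H_eq_of_isSolAt`); glue the translated short solutions through these points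
(they agree with `σ` on the overlaps by `eqOn_Ioo`; use `IsSolAt.congr`).  Finally put `σ t = σ_k t` with `k = k(t)`
large; near `t` it agrees with one fixed `σ_k` by `eqOn_Ioo`. -/
theorem FlowAtlas.exists_sol_global [T2Space X] (x : X) : ∃ σ : ℝ → X, σ 0 = x ∧ ∀ t, A.IsSolAt σ t := by
  obtain ⟨ε, hε, h⟩ := A.exists_sol_compact (A.H_cpt (A.H x))
  have hk : ∀ k : ℕ, ∃ σ : ℝ → X, σ 0 = x ∧
      ∀ t ∈ Ioo (-(ε + k * (ε / 2))) (ε + k * (ε / 2)), A.IsSolAt σ t := by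
    intro k
    induction k with
    | zero => simpa using h x (le_refl (A.H x))
    | succ k ih =>
      obtain ⟨σ, h0, hσ⟩ := ih
      have hk0 : 0 ≤ (k : ℝ) * (ε / 2) := by positivity
      have := chfl2_step A hε h (by linarith) h0 hσ
      have e : ε + ((k + 1 : ℕ) : ℝ) * (ε / 2) = ε + k * (ε / 2) + ε / 2 := by push_cast; ring
      rw [e]
      exact this
  have hR : ∀ R : ℝ, ∃ σ : ℝ → X, σ 0 = x ∧ ∀ t ∈ Ioo (-R) R, A.IsSolAt σ t := by
    intro R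
    obtain ⟨k, hk'⟩ := exists_nat_ge (R / (ε / 2))
    have hRk : R ≤ k * (ε / 2) := (div_le_iff₀ (by linarith)).1 hk'
    obtain ⟨σ, h0, hσ⟩ := hk k
    exact ⟨σ, h0, fun t ht => hσ t ⟨by linarith [ht.1], by linarith [ht.2]⟩⟩
  choose S hS0 hS using hR
  have hagree : ∀ R R' t : ℝ, |t| < R → R ≤ R' → S R t = S R' t := by
    intro R R' t ht hRR
    have hR0 : 0 < R := (abs_nonneg t).trans_lt ht
    exact A.eqOn_Ioo (a := -R) (b := R) (t₀ := 0) ⟨by linarith, hR0⟩ (hS R)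
      (fun u hu => hS R' u ⟨by linarith [hu.1], by linarith [hu.2]⟩) ((hS0 R).trans (hS0 R').symm)
      (abs_lt.1 ht)
  refine ⟨fun t => S (|t| + 1) t, hS0 _, fun t => ?_⟩
  have ht : t ∈ Ioo (-(|t| + 2)) (|t| + 2) := ⟨by linarith [neg_abs_le t], by linarith [le_abs_self t]⟩
  refine (hS (|t| + 2) t ht).congr ?_
  filter_upwards [Metric.ball_mem_nhds t one_pos] with u hu
  rw [Metric.mem_ball, Real.dist_eq] at hu
  refine hagree _ _ u (by linarith) ?_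
  have := abs_sub_abs_le_abs_sub u t
  linarith

/-- Choose the global solutions; `add`, `uniq` by uniqueness. -/
theorem FlowAtlas.exists_isPreFlow [T2Space X] : ∃ Φ : ℝ → X → X, A.IsPreFlow Φ := by
  choose S hS0 hS using A.exists_sol_global
  have huniq : ∀ σ : ℝ → X, (∀ t, A.IsSolAt σ t) → ∀ t, σ t = S (σ 0) t := by
    intro σ hσ t
    exact A.eqOn_Ioo (a := -(|t| + 1)) (b := |t| + 1) (t₀ := 0)
      ⟨by linarith [abs_nonneg t], by linarith [abs_nonneg t]⟩ (fun u _ => hσ u) (fun u _ => hS _ u)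
      (hS0 _).symm ⟨by linarith [neg_abs_le t], by linarith [le_abs_self t]⟩
  refine ⟨fun t x => S x t, hS0, fun s t x => ?_, fun x t => hS x t, fun t x => ?_, huniq⟩
  · have := huniq (fun u => S x (u + t)) (fun u => FlowAtlas.IsSolAt.comp_add (hS x _)) s
    simpa using this
  · have := A.H_eq_of_isSolAt (a := -(|t| + 1)) (b := |t| + 1) (s := t) (t := 0) (fun u _ => hS x u)
      ⟨by linarith [neg_abs_le t], by linarith [le_abs_self t]⟩
      ⟨by linarith [abs_nonneg t], by linarith [abs_nonneg t]⟩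
    rw [this, hS0]

end Crest.Agent.R226.G

end
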