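import Crest.Agent.R226.G0Defs

/-!
# rid 226, part G0 (port of R244/CH to `M : Type*`, `C^∞` flow; owner helper39), file `CHJacA`

Abstract calculus with a Levi-Civita pair: transformation law, variational equation, Jacobi fields.

Prefix helper lemmas with `chja_`.
-/

set_option autoImplicit false

open scoped ContDiff Manifold Topology
open Bundle Set Filter
open Crest.GeometryTopology.CoordMetric Crest.GeometryTopology.ChartCurvature Crest.GeometryTopology.Geodesic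

noncomputable section

namespace Crest.Agent.R226.G

variable {E : Type} [NormedAddCommGroup E] [NormedSpace ℝ E]

theorem chja_tri {X F : Type} [NormedAddCommGroup X] [NormedSpace ℝ X] [NormedAddCommGroup F] [NormedSpace ℝ F]
    {G : E → E →L[ℝ] E →L[ℝ] F} {G' : E →L[ℝ] E →L[ℝ] E →L[ℝ] F} {a b c : X → E} {a' b' c' : X →L[ℝ] E} {x : X}
    (hG : HasFDerivAt G G' (a x)) (ha : HasFDerivAt a a' x) (hb : HasFDerivAt b b' x) (hc : HasFDerivAt c c' x) :
    ∃ L : X →L[ℝ] F, HasFDerivAt (fun y => G (a y) (b y) (c y)) L x ∧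
      ∀ w, L w = G' (a' w) (b x) (c x) + G (a x) (b' w) (c x) + G (a x) (b x) (c' w) := by
  have h1 : HasFDerivAt (fun y => G (a y)) (G'.comp a') x :=
    HasFDerivAt.comp (𝕜 := ℝ) (E := X) (F := E) (G := E →L[ℝ] E →L[ℝ] F) x hG ha
  have h2 := HasFDerivAt.clm_apply (𝕜 := ℝ) (G := E) (H := E →L[ℝ] F) h1 hb
  have h3 := HasFDerivAt.clm_apply (𝕜 := ℝ) (G := E) (H := F) h2 hc
  refine ⟨_, h3, fun w => ?_⟩
  simp only [add_apply, ContinuousLinearMap.comp_apply, ContinuousLinearMap.flip_apply]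
  abel

theorem chja_diff {F : Type} [NormedAddCommGroup F] [NormedSpace ℝ F] {g : E → F} {U : Set E} {x : E}
    (hU : IsOpen U) (hg : ContDiffOn ℝ ∞ g U) (hx : x ∈ U) : HasFDerivAt g (fderiv ℝ g x) x :=
  ((hg.contDiffAt (hU.mem_nhds hx)).differentiableAt (by simp)).hasFDerivAt

theorem chja_has {g : E → E →L[ℝ] E →L[ℝ] ℝ} {Γ : E → E →L[ℝ] E →L[ℝ] E} {U : Set E} (h : IsLC g Γ U) {X : Type}
    [NormedAddCommGroup X] [NormedSpace ℝ X] {a b c : X → E} {a' b' c' : X →L[ℝ] E} {x : X} (hx : a x ∈ U)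
    (ha : HasFDerivAt a a' x) (hb : HasFDerivAt b b' x) (hc : HasFDerivAt c c' x) :
    ∃ L : X →L[ℝ] ℝ, HasFDerivAt (fun y => g (a y) (b y) (c y)) L x ∧
      ∀ w, L w = g (a x) (Γ (a x) (a' w) (b x)) (c x) + g (a x) (b x) (Γ (a x) (a' w) (c x)) +
        g (a x) (b' w) (c x) + g (a x) (b x) (c' w) := by
  have hG := chja_diff (F := E →L[ℝ] E →L[ℝ] ℝ) h.isOpen h.g_smooth hx
  have h1 := HasFDerivAt.comp (𝕜 := ℝ) (E := X) (F := E) (G := E →L[ℝ] E →L[ℝ] ℝ) x hG ha
  have h2 := HasFDerivAt.clm_apply (𝕜 := ℝ) (G := E) (H := E →L[ℝ] ℝ) h1 hb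
  have h3 := HasFDerivAt.clm_apply (𝕜 := ℝ) (G := E) (H := ℝ) h2 hc
  refine ⟨_, h3, fun w => ?_⟩
  rw [← h.compat _ hx]
  simp only [add_apply, ContinuousLinearMap.comp_apply, ContinuousLinearMap.flip_apply, Function.comp_apply]
  ring

theorem chja_var {X : Type} [NormedAddCommGroup X] [NormedSpace ℝ X] {V : E → E} {σ : X → E} {p a b : X}
    {c : ℝ → X} {s₀ : ℝ} (hc : HasDerivAt c a s₀) (hp : c s₀ = p) (hσ : ContDiffAt ℝ 2 σ p)
    (hV : DifferentiableAt ℝ V (σ p)) (e1 : (fun q => fderiv ℝ σ q a) =ᶠ[𝓝 p] V ∘ σ) :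
    HasDerivAt (fun s => fderiv ℝ σ (c s) b) (fderiv ℝ V (σ p) (fderiv ℝ σ p b)) s₀ := by
  have hS : HasFDerivAt (fderiv ℝ σ) (fderiv ℝ (fderiv ℝ σ) p) p :=
    ((hσ.fderiv_right (m := 1) (by norm_num)).differentiableAt one_ne_zero).hasFDerivAt
  have hsym := (hσ.isSymmSndFDerivAt (by simp)).eq a b
  have d1 := HasFDerivAt.clm_apply (𝕜 := ℝ) (G := X) (H := E) hS (hasFDerivAt_const a p)
  have d2 := (hV.hasFDerivAt.comp _ (hσ.differentiableAt (by norm_num)).hasFDerivAt).congr_of_eventuallyEq e1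
  have d3 := congrArg (fun L : X →L[ℝ] E => L b) (d1.unique d2)
  simp only [add_apply, ContinuousLinearMap.comp_apply,
    ContinuousLinearMap.flip_apply, zero_apply, map_zero, zero_add] at d3
  rw [← d3, ← hsym]
  have d4 := HasDerivAt.clm_apply (𝕜 := ℝ) (F := X) (G := E) (hS.comp_hasDerivAt_of_eq s₀ hc hp.symm)
    (hasDerivAt_const s₀ b)
  simpa only [Function.comp_apply, map_zero, add_zero] using d4

/-- Transformation law of the Christoffel maps under a local isometry `ψ`.  Put `D = fderiv ψ x`,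
`S = fderiv (fderiv ψ) x` (symmetric, `ContDiffAt.isSymmSndFDerivAt`).  Differentiate `hiso` at `x` in the direction `w`
and use `compat` on both sides: `T w u = D (Γ w u) - Γ' (D w) (D u) - S w u` is symmetric in `w, u` and
`A w u v = g' (T w u) (D v)` satisfies `A w u v + A w v u = 0`, hence `A = 0` (go six times around).  `D` is injective
(`g_pos` and `hiso` at `x`), hence surjective, so `T = 0` by `g_pos` for `g'`. -/
theorem IsLC.transform [FiniteDimensional ℝ E] {g g' : E → E →L[ℝ] E →L[ℝ] ℝ} {Γ Γ' : E → E →L[ℝ] E →L[ℝ] E}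
    {U U' : Set E} (h : IsLC g Γ U) (h' : IsLC g' Γ' U') {ψ : E → E} {x : E} (hx : x ∈ U) (hx' : ψ x ∈ U')
    (hψ : ContDiffAt ℝ 2 ψ x)
    (hiso : ∀ᶠ y in 𝓝 x, ∀ u v, g y u v = g' (ψ y) (fderiv ℝ ψ y u) (fderiv ℝ ψ y v)) (u v : E) :
    fderiv ℝ ψ x (Γ x u v) =
      Γ' (ψ x) (fderiv ℝ ψ x u) (fderiv ℝ ψ x v) + fderiv ℝ (fderiv ℝ ψ) x u v := by
  have hD : HasFDerivAt ψ (fderiv ℝ ψ x) x := (hψ.differentiableAt (by norm_num)).hasFDerivAt
  have hS : HasFDerivAt (fderiv ℝ ψ) (fderiv ℝ (fderiv ℝ ψ) x) x :=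
    ((hψ.fderiv_right (m := 1) (by norm_num)).differentiableAt one_ne_zero).hasFDerivAt
  have hsym : ∀ a b, fderiv ℝ (fderiv ℝ ψ) x a b = fderiv ℝ (fderiv ℝ ψ) x b a :=
    (hψ.isSymmSndFDerivAt (by simp)).eq
  have h0 := hiso.self_of_nhds
  set D := fderiv ℝ ψ x with hDdef
  set S := fderiv ℝ (fderiv ℝ ψ) x with hSdef
  have E1 : ∀ w a b, g x (Γ x w a) b + g x a (Γ x w b) =
      g' (ψ x) (Γ' (ψ x) (D w) (D a)) (D b) + g' (ψ x) (D a) (Γ' (ψ x) (D w) (D b)) +
        g' (ψ x) (S w a) (D b) + g' (ψ x) (D a) (S w b) := by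
    intro w a b
    obtain ⟨L1, d1, l1⟩ := chja_has h (a := fun y => y) hx (hasFDerivAt_id x) (hasFDerivAt_const a x)
      (hasFDerivAt_const b x)
    obtain ⟨L2, d2, l2⟩ := chja_has h' hx' hD
      (HasFDerivAt.clm_apply (𝕜 := ℝ) (G := E) (H := E) hS (hasFDerivAt_const a x))
      (HasFDerivAt.clm_apply (𝕜 := ℝ) (G := E) (H := E) hS (hasFDerivAt_const b x))
    have d3 : L1 w = L2 w := by
      rw [d1.unique (d2.congr_of_eventuallyEq (hiso.mono fun y hy => hy a b))]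
    rw [l1, l2] at d3
    simpa only [add_apply, ContinuousLinearMap.comp_apply, ContinuousLinearMap.flip_apply, zero_apply,
      map_zero, zero_add, add_zero, ContinuousLinearMap.id_apply] using d3
  set T : E → E → E := fun w a => D (Γ x w a) - Γ' (ψ x) (D w) (D a) - S w a with hT
  have T1 : ∀ w a, T w a = T a w := fun w a => by
    simp only [hT]
    rw [h.Γ_symm x hx w a, h'.Γ_symm _ hx' (D w) (D a), hsym w a]
  have T2 : ∀ w a b, g' (ψ x) (T w a) (D b) = -g' (ψ x) (T w b) (D a) := fun w a b => by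
    have e := E1 w a b
    rw [h0, h0] at e
    rw [h'.g_symm _ hx' (T w b) (D a)]
    simp only [hT, map_sub, sub_apply]
    linarith
  have T3 : ∀ b, g' (ψ x) (T u v) (D b) = 0 := fun b => by
    have e1 := T2 u v b
    have e2 := T2 b u v
    have e3 := T2 v b u
    rw [T1 u b] at e1
    rw [T1 b v] at e2
    rw [T1 v u] at e3
    linarith
  have hinj : Function.Injective (D : E →ₗ[ℝ] E) := by
    rw [injective_iff_map_eq_zero]
    intro a ha
    by_contra hne
    have e := h.g_pos x hx a hne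
    have ha' : D a = 0 := ha
    rw [h0, ha'] at e
    simp at e
  obtain ⟨z, hz⟩ := LinearMap.injective_iff_surjective.1 hinj (T u v)
  have hz' : D z = T u v := hz
  have T4 : T u v = 0 := by
    by_contra hne
    have e := h'.g_pos _ hx' _ hne
    have e' := T3 z
    rw [hz'] at e'
    linarith
  simp only [hT] at T4
  rw [sub_sub, sub_eq_zero] at T4
  exact T4

/-- The derivative of the spray. -/
theorem fderiv_spray {Γ : E → E →L[ℝ] E →L[ℝ] E} {y w : E} (hΓ : DifferentiableAt ℝ Γ y) (J K : E) :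
    DifferentiableAt ℝ (spray Γ) (y, w) ∧
      fderiv ℝ (spray Γ) (y, w) (J, K) = (K, -(fderiv ℝ Γ y J w w) - Γ y K w - Γ y w K) := by
  obtain ⟨L, d, l⟩ := chja_tri (a := Prod.fst) (b := Prod.snd) (c := Prod.snd) (x := (y, w)) hΓ.hasFDerivAt
    hasFDerivAt_fst hasFDerivAt_snd hasFDerivAt_snd
  have h3 : HasFDerivAt (spray Γ) _ (y, w) := (hasFDerivAt_snd (𝕜 := ℝ) (p := (y, w))).prodMk d.neg
  refine ⟨h3.differentiableAt, ?_⟩
  rw [h3.fderiv]
  simp only [ContinuousLinearMap.prod_apply, neg_apply, l, ContinuousLinearMap.coe_snd',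
    ContinuousLinearMap.coe_fst', Prod.mk.injEq, true_and]
  abel

/-- The variational equation: differentiate `∂ₛ σ = V σ` in the parameter and swap the two derivatives
(`fderiv σ q (1,0) = V (σ q)` near `(s₀,0)`, symmetry of the second derivative of `σ`). -/
theorem variational_eq {V : E → E} {σ : ℝ × ℝ → E} {s₀ : ℝ} (hσ : ContDiffAt ℝ 2 σ (s₀, 0))
    (hV : DifferentiableAt ℝ V (σ (s₀, 0)))
    (hode : ∀ᶠ q : ℝ × ℝ in 𝓝 (s₀, 0), HasDerivAt (fun s => σ (s, q.2)) (V (σ q)) q.1) :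
    HasDerivAt (fun s => fderiv ℝ σ (s, 0) (0, 1))
      (fderiv ℝ V (σ (s₀, 0)) (fderiv ℝ σ (s₀, 0) (0, 1))) s₀ := by
  have hl : ∀ s t : ℝ, HasDerivAt (fun r : ℝ => ((r, t) : ℝ × ℝ)) (1, 0) s := fun s t =>
    (hasDerivAt_id s).prodMk (hasDerivAt_const s t)
  refine chja_var (hl s₀ 0) rfl hσ hV ?_
  filter_upwards [hσ.eventually (by simp), hode] with q hq hq'
  exact (((hq.differentiableAt (by norm_num)).hasFDerivAt.comp_hasDerivAt_of_eq q.1 (hl q.1 q.2)
    rfl)).unique hq'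

end Crest.Agent.R226.G

end
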