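import Crest.Agent.R226.G0Defs

/-!
# rid 226, part G0 (port of R244/CH to `M : Type*`, `C^∞` flow; owner helper39), file `CHJacB`

Abstract calculus with a Levi-Civita pair: transformation law, variational equation, Jacobi fields.

Prefix helper lemmas with `chjb_`.
-/

set_option autoImplicit false

open scoped ContDiff Manifold Topology
open Bundle Set Filter
open Crest.GeometryTopology.CoordMetric Crest.GeometryTopology.ChartCurvature Crest.GeometryTopology.Geodesic

noncomputable section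

namespace Crest.Agent.R226.G

variable {E : Type} [NormedAddCommGroup E] [NormedSpace ℝ E]

theorem chjb_comp {F : Type} [NormedAddCommGroup F] [NormedSpace ℝ F] {f : E → F} {U : Set E}
    (hU : IsOpen U) (hf : ContDiffOn ℝ ∞ f U) {c : ℝ → E} {c' : E} {s : ℝ} (hs : c s ∈ U)
    (hc : HasDerivAt c c' s) : HasDerivAt (fun r => f (c r)) (fderiv ℝ f (c s) c') s :=
  (((hf.contDiffAt (hU.mem_nhds hs)).differentiableAt (by simp)).hasFDerivAt).comp_hasDerivAt s hc

/-- `d/ds g(X,Y) = g(DX,Y) + g(X,DY)` along a curve. -/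
theorem IsLC.hasDerivAt_inner {g : E → E →L[ℝ] E →L[ℝ] ℝ} {Γ : E → E →L[ℝ] E →L[ℝ] E} {U : Set E}
    (h : IsLC g Γ U) {c X Y : ℝ → E} {c' X' Y' : E} {s : ℝ} (hU : c s ∈ U) (hc : HasDerivAt c c' s)
    (hX : HasDerivAt X X' s) (hY : HasDerivAt Y Y' s) :
    HasDerivAt (fun r => g (c r) (X r) (Y r))
      (g (c s) (X' + Γ (c s) c' (X s)) (Y s) + g (c s) (X s) (Y' + Γ (c s) c' (Y s))) s := by
  have hg : HasDerivAt (fun r => g (c r)) (fderiv ℝ g (c s) c') s :=
    chjb_comp (F := E →L[ℝ] E →L[ℝ] ℝ) h.isOpen h.g_smooth hU hc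
  refine ((hg.clm_apply hX).clm_apply hY).congr_deriv ?_
  simp only [add_apply, map_add, h.compat _ hU]
  ring

/-- The linearised geodesic equation is the Jacobi equation: with `DJ = K + Γ c' J`,
`d/ds g(J, DJ) = g(DJ, DJ) - g(R(J,c')c', J)`.  Apply `hasDerivAt_inner` with `X = J`, `Y = DJ`; the derivative of `DJ`
comes from the product rule, and `(DJ)' + Γ c' DJ = -curv Γ c J c' c'` by the symmetry of `Γ` and of `fderiv Γ c a`
(`Γ y u v = Γ y v u` near `c s`). -/
theorem IsLC.hasDerivAt_jacobi {g : E → E →L[ℝ] E →L[ℝ] ℝ} {Γ : E → E →L[ℝ] E →L[ℝ] E} {U : Set E}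
    (h : IsLC g Γ U) {c c' J K : ℝ → E} {s : ℝ} (hU : c s ∈ U) (hc : HasDerivAt c (c' s) s)
    (hc' : HasDerivAt c' (-Γ (c s) (c' s) (c' s)) s) (hJ : HasDerivAt J (K s) s)
    (hK : HasDerivAt K
      (-(fderiv ℝ Γ (c s) (J s) (c' s) (c' s)) - Γ (c s) (K s) (c' s) - Γ (c s) (c' s) (K s)) s) :
    HasDerivAt (fun r => g (c r) (J r) (K r + Γ (c r) (c' r) (J r)))
      (g (c s) (K s + Γ (c s) (c' s) (J s)) (K s + Γ (c s) (c' s) (J s)) -
        g (c s) (curv Γ (c s) (J s) (c' s) (c' s)) (J s)) s := by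
  have hΓ : HasDerivAt (fun r => Γ (c r)) (fderiv ℝ Γ (c s) (c' s)) s :=
    chjb_comp (F := E →L[ℝ] E →L[ℝ] E) h.isOpen h.Γ_smooth hU hc
  have hap : ∀ u v, HasDerivAt (fun r => Γ (c r) u v) (fderiv ℝ Γ (c s) (c' s) u v) s := fun u v => by
    simpa using (hΓ.clm_apply (hasDerivAt_const s u)).clm_apply (hasDerivAt_const s v)
  have hsym : ∀ u v, fderiv ℝ Γ (c s) (c' s) u v = fderiv ℝ Γ (c s) (c' s) v u := fun u v => by
    refine (hap u v).unique ((hap v u).congr_of_eventuallyEq ?_)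
    filter_upwards [hc.continuousAt.preimage_mem_nhds (h.isOpen.mem_nhds hU)] with r hr
    exact h.Γ_symm _ hr u v
  have hD := hK.add ((hΓ.clm_apply hc').clm_apply hJ)
  refine (h.hasDerivAt_inner hU hc hJ hD).congr_deriv ?_
  have e : -(fderiv ℝ Γ (c s) (J s) (c' s) (c' s)) - Γ (c s) (K s) (c' s) - Γ (c s) (c' s) (K s) +
      ((fderiv ℝ Γ (c s) (c' s) (c' s) + Γ (c s) (-Γ (c s) (c' s) (c' s))) (J s) +
        Γ (c s) (c' s) (K s)) + Γ (c s) (c' s) (K s + Γ (c s) (c' s) (J s)) =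
      -curv Γ (c s) (J s) (c' s) (c' s) := by
    simp only [curv, add_apply, map_add, map_neg, neg_apply]
    rw [hsym (c' s) (J s), h.Γ_symm _ hU (K s) (c' s), h.Γ_symm _ hU (J s) (c' s),
      h.Γ_symm _ hU (J s) (Γ (c s) (c' s) (c' s))]
    abel
  simp only [Pi.add_apply]
  rw [e, map_neg, h.g_symm _ hU (J s), sub_eq_add_neg]

/-- Cauchy–Schwarz for a symmetric non-negative form. -/
theorem bilin_cs {q : E →L[ℝ] E →L[ℝ] ℝ} (hs : ∀ u v, q u v = q v u) (hn : ∀ v, 0 ≤ q v v) (u v : E) :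
    q u v ^ 2 ≤ q u u * q v v := by
  have h := discrim_le_zero (a := q u u) (b := 2 * q u v) (c := q v v) fun t => by
    have := hn (t • u + v)
    simp only [map_add, map_smul, add_apply, smul_apply,
      smul_eq_mul, hs v u] at this
    linarith
  unfold discrim at h
  linarith

end Crest.Agent.R226.G

end
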