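import Crest.Agent.R226.G0TM
import Crest.Agent.R226.G0JacA
import Crest.Agent.R226.G0JacB
import Crest.Agent.R226.G0Flow3

/-!
# rid 226, part G0 (port of R244/CH to `M : Type*`, `C^∞` flow; owner helper39), file `CHGeo`

Existence of the geodesic flow.

Prefix helper lemmas with `chgeo_`.
-/

set_option autoImplicit false
set_option linter.unusedSectionVars false

open scoped ContDiff Manifold Topology
open Bundle Set Filter
open Crest.GeometryTopology.CoordMetric Crest.GeometryTopology.ChartCurvature Crest.GeometryTopology.Geodesic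

noncomputable section

namespace Crest.Agent.R226.G

variable {n : ℕ} {M : Type*} [TopologicalSpace M] [ChartedSpace (EE n) M] [IsManifold 𝓘(ℝ, EE n) ∞ M]

/-- points near `chartAt x m` are chart images of points in both sources -/
theorem chgeo_near {x z m : M} (hx : m ∈ (chartAt (EE n) x).source) (hz : m ∈ (chartAt (EE n) z).source) :
    ∀ᶠ y in 𝓝 (chartAt (EE n) x m), ∃ m', m' ∈ (chartAt (EE n) x).source ∧ m' ∈ (chartAt (EE n) z).source ∧
      chartAt (EE n) x m' = y := by
  have ht := (chartAt (EE n) x).map_source hx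
  have h1 : ∀ᶠ y in 𝓝 (chartAt (EE n) x m), y ∈ (chartAt (EE n) x).target :=
    (chartAt (EE n) x).open_target.mem_nhds ht
  have h2 : ∀ᶠ y in 𝓝 (chartAt (EE n) x m), (chartAt (EE n) x).symm y ∈ (chartAt (EE n) z).source := by
    refine ((chartAt (EE n) x).continuousAt_symm ht).preimage_mem_nhds ?_
    rw [(chartAt (EE n) x).left_inv hx]
    exact (chartAt (EE n) z).open_source.mem_nhds hz
  filter_upwards [h1, h2] with y hy1 hy2
  exact ⟨_, (chartAt (EE n) x).map_target hy1, hy2, (chartAt (EE n) x).right_inv hy1⟩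

theorem chgeo_comp_fst {E F : Type} [NormedAddCommGroup E] [NormedSpace ℝ E] [NormedAddCommGroup F]
    [NormedSpace ℝ F] {f : E → F} {y w : E} (h : DifferentiableAt ℝ f y) :
    HasFDerivAt (fun q : E × E => f q.1) ((fderiv ℝ f y).comp (ContinuousLinearMap.fst ℝ E E)) (y, w) :=
  HasFDerivAt.comp (f := Prod.fst) (y, w) h.hasFDerivAt hasFDerivAt_fst

set_option synthInstance.maxHeartbeats 200000 in
theorem chgeo_energy {E : Type} [NormedAddCommGroup E] [NormedSpace ℝ E] {g : E → E →L[ℝ] E →L[ℝ] ℝ}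
    {Γ : E → E →L[ℝ] E →L[ℝ] E} {U : Set E} (L : IsLC g Γ U) {q : E × E} (hy : q.1 ∈ U) :
    DifferentiableAt ℝ (fun q : E × E => g q.1 q.2 q.2) q ∧
      fderiv ℝ (fun q : E × E => g q.1 q.2 q.2) q (spray Γ q) = 0 := by
  obtain ⟨y, w⟩ := q
  dsimp only at hy
  have h : DifferentiableAt ℝ g y :=
    (L.g_smooth.contDiffAt (L.isOpen.mem_nhds hy)).differentiableAt (by simp)
  have d0 : HasFDerivAt (fun q : E × E => q.2) (ContinuousLinearMap.snd ℝ E E) (y, w) := hasFDerivAt_snd
  have d1 := chgeo_comp_fst (F := E →L[ℝ] E →L[ℝ] ℝ) (f := g) (y := y) (w := w) h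
  have d2 := (d1.clm_apply d0).clm_apply d0
  refine ⟨d2.differentiableAt, ?_⟩
  rw [d2.fderiv]
  simp only [spray, ContinuousLinearMap.comp_apply,
    ContinuousLinearMap.coe_fst', ContinuousLinearMap.coe_snd', add_apply,
    ContinuousLinearMap.flip_apply, map_neg, neg_apply, L.compat y hy]
  ring

theorem chgeo_push {E : Type} [NormedAddCommGroup E] [NormedSpace ℝ E] {Γ Γ' : E → E →L[ℝ] E →L[ℝ] E}
    {ψ : E → E} {q : E × E} (h : ContDiffAt ℝ ∞ ψ q.1)
    (hT : ∀ u v, fderiv ℝ ψ q.1 (Γ q.1 u v) =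
      Γ' (ψ q.1) (fderiv ℝ ψ q.1 u) (fderiv ℝ ψ q.1 v) + fderiv ℝ (fderiv ℝ ψ) q.1 u v) :
    fderiv ℝ (fun q : E × E => (ψ q.1, fderiv ℝ ψ q.1 q.2)) q (spray Γ q) =
      spray Γ' (ψ q.1, fderiv ℝ ψ q.1 q.2) := by
  obtain ⟨y, w⟩ := q
  dsimp only at h hT ⊢
  have h' : ContDiffAt ℝ ∞ (fderiv ℝ ψ) y := h.fderiv_right (by simp)
  have d1 := chgeo_comp_fst (w := w) (h.differentiableAt (by simp))
  have d2 := chgeo_comp_fst (w := w) (h'.differentiableAt (by simp))
  have d3 := d1.prodMk (d2.clm_apply (hasFDerivAt_snd (p := (y, w))))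
  rw [d3.fderiv]
  simp only [spray, ContinuousLinearMap.prod_apply, ContinuousLinearMap.comp_apply,
    ContinuousLinearMap.coe_fst', ContinuousLinearMap.coe_snd', add_apply,
    ContinuousLinearMap.flip_apply, map_neg, hT]
  congr 1
  abel

theorem chgeo_fst {x : M} (ξ : TM n M) {P : EE n → Prop} (h : ∀ᶠ y in 𝓝 (chartAt (EE n) x ξ.proj), P y) :
    ∀ᶠ q in 𝓝 (tmChart n x ξ), P q.1 := by
  rw [← tmChart_fst] at h
  exact continuous_fst.continuousAt.eventually h

theorem spray_smooth (g : RM n M) (z : M) : ContDiffOn ℝ ∞ (spray (chartΓ g z)) (tmChart n z).target := by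
  rw [tmChart_target]
  have h : ContDiffOn ℝ ∞ (fun q : EE n × EE n => chartΓ g z q.1) ((chartAt (EE n) z).target ×ˢ univ) :=
    (isLC_chart g z).Γ_smooth.comp contDiffOn_fst fun q hq => hq.1
  exact contDiffOn_snd.prodMk ((h.clm_apply contDiffOn_snd).clm_apply contDiffOn_snd).neg

/-- Near the point the transition map is `(y, w) ↦ (tr y, fderiv tr y w)` (`tmChart_trans`). -/
theorem tmChart_trans_eventually {x z : M} {ξ : TM n M} (hx : ξ ∈ (tmChart n x).source)
    (hz : ξ ∈ (tmChart n z).source) :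
    (tmChart n z ∘ (tmChart n x).symm) =ᶠ[𝓝 (tmChart n x ξ)]
      fun q : EE n × EE n => (tr n x z q.1, fderiv ℝ (tr n x z) q.1 q.2) := by
  have h := chgeo_fst ξ (chgeo_near (mem_tmChart_source.1 hx) (mem_tmChart_source.1 hz))
  filter_upwards [h] with q hq
  obtain ⟨y, w⟩ := q
  obtain ⟨m, hmx, hmz, hm⟩ := hq
  dsimp only at hm
  subst hm
  exact tmChart_trans hmx hmz w

theorem tmChart_trans_smooth {x z : M} {ξ : TM n M} (hx : ξ ∈ (tmChart n x).source)
    (hz : ξ ∈ (tmChart n z).source) : ContDiffAt ℝ ∞ (tmChart n z ∘ (tmChart n x).symm) (tmChart n x ξ) := by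
  refine ContDiffAt.congr_of_eventuallyEq ?_ (tmChart_trans_eventually hx hz)
  have h := tr_smooth (mem_tmChart_source.1 hx) (mem_tmChart_source.1 hz)
  rw [← tmChart_fst] at h
  have h' : ContDiffAt ℝ ∞ (fderiv ℝ (tr n x z)) (tmChart n x ξ).1 := h.fderiv_right (by simp)
  exact (h.comp _ contDiffAt_fst).prodMk ((h'.comp _ contDiffAt_fst).clm_apply contDiffAt_snd)

/-- The derivative of `(y, w) ↦ (ψ y, Dψ y w)` at `(y, w)` on `(w, -Γ w w)` is
`(Dψ w, D²ψ w w - Dψ (Γ w w)) = (Dψ w, -Γ' (Dψ w) (Dψ w))` by `IsLC.transform` (`chartG_trans` holds near the point). -/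
theorem spray_push (g : RM n M) {x z : M} {ξ : TM n M} (hx : ξ ∈ (tmChart n x).source)
    (hz : ξ ∈ (tmChart n z).source) :
    fderiv ℝ (tmChart n z ∘ (tmChart n x).symm) (tmChart n x ξ) (spray (chartΓ g x) (tmChart n x ξ)) =
      spray (chartΓ g z) (tmChart n z ξ) := by
  have hx' := mem_tmChart_source.1 hx
  have hz' := mem_tmChart_source.1 hz
  have hev := tmChart_trans_eventually hx hz
  have hzeq : tmChart n z ξ = (tr n x z (tmChart n x ξ).1, fderiv ℝ (tr n x z) (tmChart n x ξ).1 (tmChart n x ξ).2) := by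
    have := hev.eq_of_nhds
    simp only [Function.comp_apply] at this
    rwa [(tmChart n x).left_inv hx] at this
  rw [hev.fderiv_eq, hzeq]
  have h := tr_smooth hx' hz'
  have hT := fun u v => IsLC.transform (isLC_chart g x) (isLC_chart g z) (ψ := tr n x z)
    ((chartAt (EE n) x).map_source hx') (by rw [tr_apply hx']; exact (chartAt (EE n) z).map_source hz')
    (h.of_le (by norm_cast)) (by
      filter_upwards [chgeo_near hx' hz'] with y hy u v
      obtain ⟨m, hmx, hmz, rfl⟩ := hy
      rw [tr_apply hmx]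
      exact chartG_trans g hmx hmz u v) u v
  rw [← tmChart_fst] at h hT
  exact chgeo_push h hT

/-- Near the point `energy ∘ (tmChart z).symm = fun (y, w) => chartG g z y w w` (`energy_chart`); its derivative on
`(w, -Γ w w)` vanishes by `compat` and the symmetry of the metric. -/
theorem energy_inv (g : RM n M) {z : M} {ξ : TM n M} (hz : ξ ∈ (tmChart n z).source) :
    DifferentiableAt ℝ (energy g ∘ (tmChart n z).symm) (tmChart n z ξ) ∧
      fderiv ℝ (energy g ∘ (tmChart n z).symm) (tmChart n z ξ) (spray (chartΓ g z) (tmChart n z ξ)) = 0 := by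
  have hz' := mem_tmChart_source.1 hz
  have hev : (energy g ∘ (tmChart n z).symm) =ᶠ[𝓝 (tmChart n z ξ)]
      fun q : EE n × EE n => chartG g z q.1 q.2 q.2 := by
    filter_upwards [(tmChart n z).open_target.mem_nhds ((tmChart n z).map_source hz)] with q hq
    have h1 := energy_chart g (mem_tmChart_source.1 ((tmChart n z).map_target hq))
    rw [(tmChart n z).right_inv hq] at h1
    exact h1
  have L := isLC_chart g z
  have hy : (tmChart n z ξ).1 ∈ (chartAt (EE n) z).target := by
    rw [tmChart_fst]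
    exact (chartAt (EE n) z).map_source hz'
  rw [hev.differentiableAt_iff, hev.fderiv_eq]
  exact chgeo_energy L hy

/-- The geodesic spray as a vector field in charts. -/
def geoAtlas [CompactSpace M] (g : RM n M) : FlowAtlas (TM n M) (EE n × EE n) M where
  χ := tmChart n
  V z := spray (chartΓ g z)
  H := energy g
  cover ξ := ⟨ξ.proj, mem_tmChart_source.2 (mem_chart_source _ _)⟩
  smooth := spray_smooth g
  trans_smooth _ _ _ := tmChart_trans_smooth
  trans_push _ _ _ := spray_push g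
  H_cont := continuous_energy g
  H_cpt := isCompact_energy_le g
  H_diff _ _ h := (energy_inv g h).1
  H_inv _ _ h := (energy_inv g h).2

theorem exists_geoFlow [T2Space M] [CompactSpace M] (g : RM n M) :
    ∃ Φ : ℝ → TM n M → TM n M, IsGeoFlow g Φ := by
  have : T2Space (TM n M) := t2Space_TM
  obtain ⟨Φ, h⟩ := (geoAtlas g).exists_isFlow
  have key : ∀ σ t, (geoAtlas g).IsSolAt σ t ↔ IsGeoAt g σ t := fun σ t =>
    and_congr_right fun _ => forall_congr' fun z => imp_congr_left mem_tmChart_source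
  exact ⟨Φ, h.zero, h.add, fun ξ t => (key _ _).1 (h.sol ξ t), h.H_eq,
    fun σ hσ => h.uniq σ fun t => (key _ _).2 (hσ t), h.cont,
    fun x z ξ t hx hz => h.smooth x z ξ t (mem_tmChart_source.2 hx) (mem_tmChart_source.2 hz)⟩

end Crest.Agent.R226.G

end
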