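import Crest.Agent.R226.G0TMA

/-!
# rid 226, part G0 (port of R244/CH to `M : Type*`, `C^∞` flow; owner helper39), file `CHTM`

The charts of the tangent bundle and the energy.

Prefix helper lemmas with `chtm_`.
-/

set_option autoImplicit false
set_option linter.unusedSectionVars false

open scoped ContDiff Manifold Topology
open Bundle Set Filter
open Crest.GeometryTopology.CoordMetric Crest.GeometryTopology.ChartCurvature Crest.GeometryTopology.Geodesic

noncomputable section

namespace Crest.Agent.R226.G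

variable {n : ℕ} {M : Type*} [TopologicalSpace M] [ChartedSpace (EE n) M] [IsManifold 𝓘(ℝ, EE n) ∞ M]

theorem energy_chart (g : RM n M) {z : M} {ξ : TM n M} (hz : ξ.proj ∈ (chartAt (EE n) z).source) :
    energy g ξ = chartG g z (tmChart n z ξ).1 (tmChart n z ξ).2 (tmChart n z ξ).2 := by
  rw [tmChart_fst, tmChart_snd, ← chartG_trans g (mem_chart_source (EE n) ξ.proj) hz, chartG_center]
  rfl

theorem chtm_contOn (g : RM n M) (z : M) :
    ContinuousOn (fun q : EE n × EE n => chartG g z q.1 q.2 q.2) ((chartAt (EE n) z).target ×ˢ univ) := by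
  have h1 : ContinuousOn (fun q : EE n × EE n => chartG g z q.1) ((chartAt (EE n) z).target ×ˢ univ) :=
    (isLC_chart g z).g_smooth.continuousOn.comp continuousOn_fst fun q hq => hq.1
  exact (h1.clm_apply continuousOn_snd).clm_apply continuousOn_snd

theorem continuous_energy (g : RM n M) : Continuous (energy g) := by
  refine continuous_iff_continuousAt.2 fun ξ => ?_
  have hs : ξ ∈ (tmChart n ξ.proj).source := mem_tmChart_source.2 (mem_chart_source (EE n) ξ.proj)
  have h1 : ContinuousOn (fun η => chartG g ξ.proj (tmChart n ξ.proj η).1 (tmChart n ξ.proj η).2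
      (tmChart n ξ.proj η).2) (tmChart n ξ.proj).source :=
    (chtm_contOn g ξ.proj).comp (tmChart n ξ.proj).continuousOn fun η hη => by
      rw [← tmChart_target]
      exact (tmChart n ξ.proj).map_source hη
  exact (h1.congr fun η hη => energy_chart g (mem_tmChart_source.1 hη)).continuousAt
    ((tmChart n ξ.proj).open_source.mem_nhds hs)

theorem chtm_coercive (g : RM n M) (z : M) {K : Set (EE n)} (hK : IsCompact K)
    (hKt : K ⊆ (chartAt (EE n) z).target) : ∃ c : ℝ, 0 < c ∧ ∀ y ∈ K, ∀ w, c * ‖w‖ ^ 2 ≤ chartG g z y w w := by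
  obtain ⟨c, hc, h⟩ := (hK.prod (isCompact_sphere (0 : EE n) 1)).exists_forall_le'
    ((chtm_contOn g z).mono fun q hq => ⟨hKt hq.1, mem_univ _⟩) (a := 0) fun q hq =>
      (isLC_chart g z).g_pos _ (hKt hq.1) _ fun h0 => by
        have h1 := hq.2
        rw [h0] at h1
        simp at h1
  refine ⟨c, hc, fun y hy w => ?_⟩
  rcases eq_or_ne w 0 with rfl | hw
  · simp
  have hn : 0 < ‖w‖ := norm_pos_iff.2 hw
  have h1 := h (y, ‖w‖⁻¹ • w) ⟨hy, by simp [norm_smul, hn.ne']⟩
  simp only [map_smul, smul_apply, smul_eq_mul] at h1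
  have h2 : ‖w‖⁻¹ * (‖w‖⁻¹ * chartG g z y w w) * ‖w‖ ^ 2 = chartG g z y w w := by field_simp
  rw [← h2]
  exact mul_le_mul_of_nonneg_right h1 (by positivity)

theorem chtm_local (g : RM n M) (r : ℝ) (x : M) : ∃ (U : Set M) (K : Set (TM n M)), U ∈ 𝓝 x ∧ IsCompact K ∧
    ∀ ξ : TM n M, ξ.proj ∈ U → energy g ξ ≤ r → ξ ∈ K := by
  obtain ⟨B, hB, hBt, hBc⟩ := local_compact_nhds ((chartAt (EE n) x).open_target.mem_nhds (mem_chart_target (EE n) x))
  obtain ⟨c, hc, h⟩ := chtm_coercive g x hBc hBt
  refine ⟨(chartAt (EE n) x).source ∩ chartAt (EE n) x ⁻¹' B,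
    (tmChart n x).symm '' (B ×ˢ Metric.closedBall 0 (1 + |r| / c)),
    inter_mem (chart_source_mem_nhds (EE n) x) (((chartAt (EE n) x).continuousAt (mem_chart_source (EE n) x)) hB),
    (hBc.prod (isCompact_closedBall _ _)).image_of_continuousOn ((tmChart n x).continuousOn_symm.mono ?_),
    fun ξ hξ hr => ⟨tmChart n x ξ, ⟨?_, ?_⟩, (tmChart n x).left_inv (mem_tmChart_source.2 hξ.1)⟩⟩
  · rw [tmChart_target]
    exact fun q hq => ⟨hBt hq.1, mem_univ _⟩
  · rw [tmChart_fst]
    exact hξ.2
  · have h1 := h (tmChart n x ξ).1 (by rw [tmChart_fst]; exact hξ.2) (tmChart n x ξ).2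
    rw [← energy_chart g hξ.1] at h1
    rw [mem_closedBall_zero_iff]
    obtain ⟨a, ha⟩ : ∃ a, a = ‖(tmChart n x ξ).2‖ := ⟨_, rfl⟩
    rw [← ha] at h1 ⊢
    have h2 : a ^ 2 ≤ |r| / c := by
      rw [le_div_iff₀ hc]
      linarith [le_abs_self r]
    nlinarith [sq_nonneg (a - 1), sq_nonneg a]

/-- Every `x` has a compact neighbourhood `(chartAt x).symm '' closedBall`; on the closed ball
`chartG g x y w w ≥ c ‖w‖²` with `c > 0` (minimum of a continuous positive function on `closedBall ×ˢ sphere`; mind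
`n = 0`), so the part of the sublevel set over it lies in the compact set
`(tmChart x).symm '' (closedBall ×ˢ closedBall 0 R)`.  Finitely many such neighbourhoods cover `M`, and the sublevel set
is closed (`IsCompact.of_isClosed_subset`). -/
theorem isCompact_energy_le [CompactSpace M] (g : RM n M) (r : ℝ) : IsCompact {ξ : TM n M | energy g ξ ≤ r} := by
  choose U K hU hK h using chtm_local g r
  obtain ⟨t, -, ht⟩ := isCompact_univ.elim_nhds_subcover U fun x _ => hU x
  refine (t.isCompact_biUnion fun x _ => hK x).of_isClosed_subset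
    (isClosed_le (continuous_energy g) continuous_const) fun ξ hξ => ?_
  obtain ⟨x, hx, hxU⟩ := mem_iUnion₂.1 (ht (mem_univ ξ.proj))
  exact mem_iUnion₂.2 ⟨x, hx, h x ξ hxU hξ⟩

/-- The tangent bundle of a Hausdorff manifold is Hausdorff (different base points: separate in `M`; same base point:
one chart). -/
theorem t2Space_TM [T2Space M] : T2Space (TM n M) := by
  refine ⟨fun ξ η hne => ?_⟩
  by_cases h : ξ.proj = η.proj
  · have h1 : ξ ∈ (tmChart n ξ.proj).source := mem_tmChart_source.2 (mem_chart_source (EE n) ξ.proj)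
    have h2 : η ∈ (tmChart n ξ.proj).source := mem_tmChart_source.2 (h ▸ mem_chart_source (EE n) ξ.proj)
    obtain ⟨u, v, hu, hv, hξ, hη, huv⟩ :=
      t2_separation fun h' => hne ((tmChart n ξ.proj).injOn h1 h2 h')
    exact ⟨_, _, (tmChart n ξ.proj).isOpen_inter_preimage hu, (tmChart n ξ.proj).isOpen_inter_preimage hv,
      ⟨h1, hξ⟩, ⟨h2, hη⟩, (huv.preimage _).mono inter_subset_right inter_subset_right⟩
  · exact separated_by_continuous continuous_projT h

end Crest.Agent.R226.G

end
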